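import Vale.Agent.P204.Full.Op.Smooth

/-!
P204, module F6: the basic square-integral lemma for parameter averages (helper55).
-/

namespace Vale.Agent.P204.Full.Op

open MeasureTheory Set Filter
open scoped ContDiff Topology

/-- If `h` is an average of a two-variable function `φ` whose slices have square integral at most
`B`, then the square integral of `h` is at most the squared total weight times `B`. -/
theorem sq2_avg_le {P : Type} [TopologicalSpace P] [MeasurableSpace P] [OpensMeasurableSpace P]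
    [SecondCountableTopology P] {μ : Measure P} [SFinite μ] {k : P → ℝ} (hk : Integrable k μ)
    {S : Set P} (hS : IsCompact S) (hkS : ∀ p, p ∉ S → k p = 0) {φ : P → E4 → ℝ}
    (hφ : Continuous fun q : P × E4 => φ q.1 q.2) {K : Set E4} (hK : IsCompact K)
    (hφK : ∀ p ∈ S, ∀ x, x ∉ K → φ p x = 0) {B : ℝ} (hB : ∀ p ∈ S, sq2 (φ p) ≤ B) :
    sq2 (fun x => ∫ p, k p * φ p x ∂μ) ≤ (∫ p, |k p| ∂μ) ^ 2 * B := by
  set m := ∫ p, |k p| ∂μ with hm
  have hm0 : 0 ≤ m := integral_nonneg fun p => abs_nonneg _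
  obtain ⟨C, hC⟩ := (hS.prod hK).exists_bound_of_continuousOn
    (f := fun q : P × E4 => φ q.1 q.2) hφ.continuousOn
  have hpt : ∀ p ∈ S, ∀ x, |φ p x| ≤ max C 0 := by
    intro p hp x
    by_cases hx : x ∈ K
    · exact (hC (p, x) ⟨hp, hx⟩).trans (le_max_left _ _)
    · simp [hφK p hp x hx]
  have hkφ : ∀ p x, |k p * φ p x| ≤ |k p| * max C 0 := by
    intro p x
    rw [abs_mul]
    by_cases hp : p ∈ S
    · exact mul_le_mul_of_nonneg_left (hpt p hp x) (abs_nonneg _)
    · simp [hkS p hp]
  have hkφ2 : ∀ p x, |k p| * φ p x ^ 2 ≤ |k p| * max C 0 ^ 2 := by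
    intro p x
    by_cases hp : p ∈ S
    · exact mul_le_mul_of_nonneg_left
        (sq_le_sq' (abs_le.1 (hpt p hp x)).1 (abs_le.1 (hpt p hp x)).2) (abs_nonneg _)
    · simp [hkS p hp]
  have hsl : ∀ x, Continuous fun p => φ p x := fun x =>
    hφ.comp (continuous_id.prodMk continuous_const)
  have hI1 : ∀ x, Integrable (fun p => k p * φ p x) μ := fun x =>
    (hk.abs.mul_const (max C 0)).mono' (hk.1.mul (hsl x).aestronglyMeasurable)
      (Eventually.of_forall fun p => hkφ p x)
  have hI2 : ∀ x, Integrable (fun p => |k p| * φ p x ^ 2) μ := fun x =>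
    (hk.abs.mul_const (max C 0 ^ 2)).mono' (hk.abs.1.mul ((hsl x).pow 2).aestronglyMeasurable)
      (Eventually.of_forall fun p => by
        rw [Real.norm_eq_abs, abs_of_nonneg (mul_nonneg (abs_nonneg _) (sq_nonneg _))]
        exact hkφ2 p x)
  have hcs : ∀ x, (∫ p, k p * φ p x ∂μ) ^ 2 ≤ m * ∫ p, |k p| * φ p x ^ 2 ∂μ := by
    intro x
    set o := ∫ p, k p * φ p x ∂μ
    set q := ∫ p, |k p| * φ p x ^ 2 ∂μ
    have key : ∀ t : ℝ, 0 ≤ m * (t * t) + -(2 * o) * t + q := by
      intro t
      have h : (fun p => 2 * t * (k p * φ p x)) ≤ fun p => t ^ 2 * |k p| + |k p| * φ p x ^ 2 := by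
        intro p
        have h1 : k p * (t * φ p x) ≤ |k p| * (|t| * |φ p x|) := by
          refine (le_abs_self _).trans (le_of_eq ?_)
          rw [abs_mul, abs_mul]
        have h2 := mul_nonneg (abs_nonneg (k p)) (sq_nonneg (|t| - |φ p x|))
        rw [sub_sq, sq_abs, sq_abs] at h2
        dsimp only
        linarith
      have := integral_mono ((hI1 x).const_mul (2 * t)) ((hk.abs.const_mul (t ^ 2)).add (hI2 x)) h
      rw [integral_const_mul, integral_add' (hk.abs.const_mul (t ^ 2)) (hI2 x), integral_const_mul]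
        at this
      nlinarith
    have := discrim_le_zero key
    simp only [discrim] at this
    nlinarith
  have hKi : Integrable (K.indicator fun _ => (1 : ℝ)) (volume : Measure E4) :=
    (integrable_indicator_iff hK.measurableSet).2 (integrableOn_const hK.measure_lt_top.ne)
  have hprod : Integrable (fun q : P × E4 => |k q.1| * φ q.1 q.2 ^ 2) (μ.prod volume) := by
    refine ((hk.abs.mul_const (max C 0 ^ 2)).mul_prod hKi).mono'
      ((hk.abs.1.comp_fst).mul (hφ.pow 2).aestronglyMeasurable)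
      (Eventually.of_forall fun q => ?_)
    rw [Real.norm_eq_abs, abs_of_nonneg (mul_nonneg (abs_nonneg _) (sq_nonneg _))]
    by_cases hx : q.2 ∈ K
    · simpa [Set.indicator_of_mem hx] using hkφ2 q.1 q.2
    · by_cases hp : q.1 ∈ S
      · simp [hφK q.1 hp q.2 hx, Set.indicator_of_notMem hx]
      · simp [hkS q.1 hp]
  calc sq2 (fun x => ∫ p, k p * φ p x ∂μ)
      ≤ ∫ x, m * ∫ p, |k p| * φ p x ^ 2 ∂μ := by
        refine integral_mono_of_nonneg (Eventually.of_forall fun x => sq_nonneg _)
          (hprod.integral_prod_right.const_mul m) (Eventually.of_forall hcs)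
    _ = m * ∫ p, |k p| * sq2 (φ p) ∂μ := by
        rw [integral_const_mul, ← integral_integral_swap (μ := μ) (ν := volume) hprod]
        simp only [integral_const_mul, sq2]
    _ ≤ m * ∫ p, |k p| * B ∂μ := by
        refine mul_le_mul_of_nonneg_left (integral_mono_of_nonneg
          (Eventually.of_forall fun p => mul_nonneg (abs_nonneg _) (integral_nonneg fun _ => sq_nonneg _))
          (hk.abs.mul_const B) (Eventually.of_forall fun p => ?_)) hm0
        by_cases hp : p ∈ S
        · exact mul_le_mul_of_nonneg_left (hB p hp) (abs_nonneg _)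
        · simp [hkS p hp]
    _ = m ^ 2 * B := by rw [integral_mul_const]; ring

/-! ### Square integrals -/

lemma sq2_nonneg (f : E4 → ℝ) : 0 ≤ sq2 f := integral_nonneg fun x => sq_nonneg _

lemma integrable_sq {f : E4 → ℝ} (hf : Continuous f) (hs : HasCompactSupport f) :
    Integrable fun x => f x ^ 2 :=
  (hf.pow 2).integrable_of_hasCompactSupport (hs.mono fun x hx => by
    contrapose! hx
    simp [Function.notMem_support.1 hx])

lemma sq2_smul (c : ℝ) (f : E4 → ℝ) : sq2 (fun x => c * f x) = c ^ 2 * sq2 f := by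
  simp only [sq2, mul_pow, integral_const_mul]

lemma sq2_add_le {f g : E4 → ℝ} (hf : Continuous f) (hfs : HasCompactSupport f) (hg : Continuous g)
    (hgs : HasCompactSupport g) : sq2 (fun x => f x + g x) ≤ 2 * sq2 f + 2 * sq2 g := by
  have h1 := (integrable_sq hf hfs).const_mul 2
  have h2 := (integrable_sq hg hgs).const_mul 2
  refine le_trans (integral_mono_of_nonneg (Eventually.of_forall fun x => sq_nonneg _) (h1.add h2)
    (Eventually.of_forall fun x => ?_)) (le_of_eq ?_)
  · simp only [Pi.add_apply]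
    nlinarith [sq_nonneg (f x - g x)]
  · rw [integral_add' h1 h2, integral_const_mul, integral_const_mul, sq2, sq2]

lemma sq2_sum_le {ι : Type} (s : Finset ι) {f : ι → E4 → ℝ} (hf : ∀ i ∈ s, Continuous (f i))
    (hfs : ∀ i ∈ s, HasCompactSupport (f i)) :
    sq2 (fun x => ∑ i ∈ s, f i x) ≤ s.card * ∑ i ∈ s, sq2 (f i) := by
  have hI : ∀ i ∈ s, Integrable fun x => f i x ^ 2 := fun i hi => integrable_sq (hf i hi) (hfs i hi)
  refine le_trans (integral_mono_of_nonneg (Eventually.of_forall fun x => sq_nonneg _)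
    ((integrable_finsetSum s hI).const_mul (s.card : ℝ))
    (Eventually.of_forall fun x => sq_sum_le_card_mul_sum_sq)) (le_of_eq ?_)
  rw [integral_const_mul, integral_finsetSum s hI]
  simp only [sq2]

/-! ### Change of variables along a flow -/

namespace Flow

variable (F : Flow)

lemma bwd_out {u y : E4} (hy : y ∉ F.supp) : F.bwd u y = y := by
  conv_lhs => rw [← F.fwd_out u y hy]
  exact F.bwd_fwd u y

lemma exists_det_bound {S : Set E4} (hS : IsCompact S) :
    ∃ D, 0 ≤ D ∧ ∀ u ∈ S, ∀ y, |(fderiv ℝ (F.bwd u) y).det| ≤ D := by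
  have hd : ContDiff ℝ ∞ fun q : E4 × E4 => fderiv ℝ (F.bwd q.1) q.2 :=
    ContDiff.fderiv (m := ∞) (f := fun q : E4 × E4 => F.bwd q.1)
      (F.smooth_bwd.comp ((contDiff_fst.comp contDiff_fst).prodMk contDiff_snd)) contDiff_snd le_rfl
  have hc : Continuous fun q : E4 × E4 => (fderiv ℝ (F.bwd q.1) q.2).det :=
    ContinuousLinearMap.continuous_det.comp hd.continuous
  obtain ⟨D, hD⟩ := (hS.prod F.compact_supp).exists_bound_of_continuousOn hc.continuousOn
  refine ⟨max (max D 1) 0, le_max_right _ _, fun u hu y => ?_⟩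
  by_cases hy : y ∈ F.supp
  · exact (hD (u, y) ⟨hu, hy⟩).trans ((le_max_left _ _).trans (le_max_left _ _))
  · have h : F.bwd u =ᶠ[𝓝 y] id :=
      Filter.eventuallyEq_of_mem (F.compact_supp.isClosed.isOpen_compl.mem_nhds hy)
        fun z hz => F.bwd_out hz
    rw [h.fderiv_eq, fderiv_id]
    have h1 : (ContinuousLinearMap.id ℝ E4).det = 1 := LinearMap.det_id
    rw [h1, abs_one]
    exact (le_max_right _ _).trans (le_max_left _ _)

lemma sq2_comp_le {D : ℝ} {u : E4} (hD : ∀ y, |(fderiv ℝ (F.bwd u) y).det| ≤ D) {f : E4 → ℝ}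
    (hf : Continuous f) (hs : HasCompactSupport f) :
    sq2 (fun x => f (F.fwd u x)) ≤ D * sq2 f := by
  have hinj : InjOn (F.bwd u) univ := fun x _ y _ h => by
    rw [← F.fwd_bwd u x, ← F.fwd_bwd u y, h]
  have himg : F.bwd u '' univ = univ :=
    image_univ_of_surjective fun x => ⟨F.fwd u x, F.bwd_fwd u x⟩
  have h := integral_image_eq_integral_abs_det_fderiv_smul (volume : Measure E4) MeasurableSet.univ
    (f' := fun y => fderiv ℝ (F.bwd u) y)
    (fun y _ => (((F.contDiff_bwd_slice u).differentiable (by simp)) y).hasFDerivAt.hasFDerivWithinAt)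
    hinj (fun x => f (F.fwd u x) ^ 2)
  rw [himg] at h
  simp only [Measure.restrict_univ, F.fwd_bwd, smul_eq_mul] at h
  show (∫ x, f (F.fwd u x) ^ 2) ≤ D * ∫ x, f x ^ 2
  rw [h, ← integral_const_mul]
  exact integral_mono_of_nonneg
    (Eventually.of_forall fun y => mul_nonneg (abs_nonneg _) (sq_nonneg _))
    ((integrable_sq hf hs).const_mul D)
    (Eventually.of_forall fun y => mul_le_mul_of_nonneg_right (hD y) (sq_nonneg _))

/-- the points sent into `K` by some parameter in `S` -/
def pre (S K : Set E4) : Set E4 := (fun q : E4 × E4 => F.bwd q.1 q.2) '' (S ×ˢ K)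

lemma isCompact_pre {S K : Set E4} (hS : IsCompact S) (hK : IsCompact K) :
    IsCompact (F.pre S K) :=
  (hS.prod hK).image F.smooth_bwd.continuous

lemma comp_eq_zero_of_notMem_pre {S : Set E4} {f : E4 → ℝ} {u x : E4} (hu : u ∈ S)
    (hx : x ∉ F.pre S (tsupport f)) : f (F.fwd u x) = 0 :=
  image_eq_zero_of_notMem_tsupport fun h => hx ⟨(u, F.fwd u x), ⟨hu, h⟩, F.bwd_fwd u x⟩

end Flow

end Vale.Agent.P204.Full.Op
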