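import Vale.Agent.P204.Full.Op.Rep
import Vale.Agent.P204.Full.Op.L2

/-!
P204, module F6: bounds for averaged operators without gain (helper55): boundedness in the
square-integral and sup norms of every order, smallness for amplitudes vanishing at parameter
zero, and the difference from parameter zero.
-/

namespace Vale.Agent.P204.Full.Op

open MeasureTheory Set Filter Metric
open scoped ContDiff Topology

variable {ρ : E4 → ℝ} {a : E4 → E4 → ℝ}

/-- the parameters that occur for scales in `[0, 1]` -/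
def params (ρ : E4 → ℝ) : Set E4 := (fun p : ℝ × E4 => p.1 • p.2) '' (Icc (0 : ℝ) 1 ×ˢ tsupport ρ)

lemma isCompact_params (hρ : IsWeight ρ) : IsCompact (params ρ) :=
  (isCompact_Icc.prod hρ.compact.isCompact).image continuous_smul

lemma smul_mem_params {e : ℝ} (he : e ∈ Icc (0 : ℝ) 1) {v : E4} (hv : v ∈ tsupport ρ) :
    e • v ∈ params ρ := ⟨(e, v), ⟨he, hv⟩, rfl⟩

lemma smul_mem_params_of_mem {u : E4} (hu : u ∈ params ρ) {s : ℝ} (hs : s ∈ Icc (0 : ℝ) 1) :
    s • u ∈ params ρ := by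
  obtain ⟨⟨e, v⟩, ⟨he, hv⟩, rfl⟩ := hu
  exact ⟨(s * e, v), ⟨⟨mul_nonneg hs.1 he.1, mul_le_one₀ hs.2 he.1 he.2⟩, hv⟩, (smul_smul s e v).symm⟩

lemma sum_words {w : List (Fin 4)} {j : ℕ} (h : w.length ≤ j) : w ∈ words j := by
  simp only [words, Finset.mem_biUnion, Finset.mem_range, Finset.mem_image, Finset.mem_univ,
    true_and]
  exact ⟨w.length, by omega, w.get, List.ofFn_get w⟩

lemma sq2_pdW_le_sob {w : List (Fin 4)} {j : ℕ} (h : w.length ≤ j) (f : E4 → ℝ) :
    sq2 (pdW w f) ≤ sob j f :=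
  Finset.single_le_sum (f := fun z => sq2 (pdW z f)) (fun _ _ => sq2_nonneg _) (sum_words h)

lemma sob_nonneg (j : ℕ) (f : E4 → ℝ) : 0 ≤ sob j f :=
  Finset.sum_nonneg fun _ _ => sq2_nonneg _

/-- the operator with the parameter average written out -/
lemma op_eq_avg (ρ : E4 → ℝ) (a : E4 → E4 → ℝ) (F : Flow) (e : ℝ) (f : E4 → ℝ) :
    op ρ a F e f = fun x => ∫ v, ρ v * (fun v x => a (e • v) x * f (F.fwd (e • v) x)) v x := rfl

/-- Square-integral bound from an amplitude bound on the relevant parameters. -/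
lemma sq2_op_le_of_bound (hρ : IsWeight ρ) (ha : IsAmp a) {F : Flow} {D : ℝ}
    (hD : ∀ u ∈ params ρ, ∀ y, |(fderiv ℝ (F.bwd u) y).det| ≤ D) {e : ℝ} (he : e ∈ Icc (0 : ℝ) 1)
    {A : ℝ} (hA : ∀ v ∈ tsupport ρ, ∀ x, |a (e • v) x| ≤ A) {f : E4 → ℝ} (hf : ContDiff ℝ ∞ f)
    (hs : HasCompactSupport f) :
    sq2 (op ρ a F e f) ≤ (∫ v, |ρ v|) ^ 2 * (A ^ 2 * (D * sq2 f)) := by
  rw [op_eq_avg]
  refine sq2_avg_le (hρ.smooth.continuous.integrable_of_hasCompactSupport hρ.compact)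
    hρ.compact.isCompact (fun v hv => image_eq_zero_of_notMem_tsupport hv)
    (contDiff_opKernel ha.smooth hf e).continuous
    (F.isCompact_pre (isCompact_params hρ) hs.isCompact) (fun v hv x hx => ?_) fun v hv => ?_
  · simp [F.comp_eq_zero_of_notMem_pre (smul_mem_params he hv) hx]
  · have hc : Continuous fun x => f (F.fwd (e • v) x) :=
      hf.continuous.comp (F.contDiff_fwd_slice _).continuous
    have hcs : HasCompactSupport fun x => f (F.fwd (e • v) x) :=
      HasCompactSupport.intro (F.isCompact_pre (isCompact_params hρ) hs.isCompact) fun x hx =>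
        F.comp_eq_zero_of_notMem_pre (smul_mem_params he hv) hx
    refine le_trans (integral_mono_of_nonneg (Eventually.of_forall fun x => sq_nonneg _)
      ((integrable_sq hc hcs).const_mul (A ^ 2)) (Eventually.of_forall fun x => ?_)) ?_
    · show (a (e • v) x * f (F.fwd (e • v) x)) ^ 2 ≤ A ^ 2 * f (F.fwd (e • v) x) ^ 2
      rw [mul_pow]
      exact mul_le_mul_of_nonneg_right
        (sq_le_sq' (abs_le.1 (hA v hv x)).1 (abs_le.1 (hA v hv x)).2) (sq_nonneg _)
    · rw [integral_const_mul]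
      exact mul_le_mul_of_nonneg_left
        (F.sq2_comp_le (hD _ (smul_mem_params he hv)) hf.continuous hs) (sq_nonneg A)

lemma hasCompactSupport_op (hρ : IsWeight ρ) (a : E4 → E4 → ℝ) (F : Flow) {e : ℝ}
    (he : e ∈ Icc (0 : ℝ) 1) {f : E4 → ℝ} (hs : HasCompactSupport f) :
    HasCompactSupport (op ρ a F e f) := by
  refine HasCompactSupport.intro (F.isCompact_pre (isCompact_params hρ) hs.isCompact) fun x hx => ?_
  refine integral_eq_zero_of_ae (Eventually.of_forall fun v => ?_)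
  by_cases hv : v ∈ tsupport ρ
  · simp [F.comp_eq_zero_of_notMem_pre (smul_mem_params he hv) hx]
  · simp [image_eq_zero_of_notMem_tsupport hv]

/-- From a representation of a derivative, a square-integral bound. -/
lemma sq2_sum_op_le (hρ : IsWeight ρ) {F : Flow} {D : ℝ}
    (hD : ∀ u ∈ params ρ, ∀ y, |(fderiv ℝ (F.bwd u) y).det| ≤ D) {e : ℝ} (he : e ∈ Icc (0 : ℝ) 1)
    {ι : Type} [Fintype ι] {b : ι → E4 → E4 → ℝ} (hb : ∀ k, IsAmp (b k)) {A : ℝ}
    (hA : ∀ k, ∀ v ∈ tsupport ρ, ∀ x, |b k (e • v) x| ≤ A) {z : ι → List (Fin 4)} {j : ℕ}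
    (hz : ∀ k, (z k).length ≤ j) (hD0 : 0 ≤ D) {f : E4 → ℝ} (hf : ContDiff ℝ ∞ f)
    (hs : HasCompactSupport f) :
    sq2 (fun x => ∑ k, op ρ (b k) F e (pdW (z k) f) x) ≤
      (Fintype.card ι : ℝ) ^ 2 * (∫ v, |ρ v|) ^ 2 * A ^ 2 * D * sob j f := by
  refine le_trans (sq2_sum_le Finset.univ
    (fun k _ => (contDiff_op hρ (hb k).smooth (contDiff_pdW hf _) e).continuous)
    (fun k _ => hasCompactSupport_op hρ (b k) F he (hasCompactSupport_pdW hs _))) ?_
  refine le_trans (mul_le_mul_of_nonneg_left (Finset.sum_le_sum fun k _ =>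
    (sq2_op_le_of_bound hρ (hb k) hD he (hA k) (contDiff_pdW hf (z k))
      (hasCompactSupport_pdW hs _)).trans
      (mul_le_mul_of_nonneg_left (mul_le_mul_of_nonneg_left
        (mul_le_mul_of_nonneg_left (sq2_pdW_le_sob (hz k) f) hD0) (sq_nonneg A)) (sq_nonneg _)))
    (Nat.cast_nonneg _)) (le_of_eq ?_)
  rw [Finset.sum_const, Finset.card_univ, nsmul_eq_mul]
  ring

lemma exists_common_bound {ι : Type} [Fintype ι] {b : ι → E4 → E4 → ℝ} (hb : ∀ k, IsAmp (b k))
    {S : Set E4} (hS : IsCompact S) : ∃ A, 0 ≤ A ∧ ∀ k, ∀ u ∈ S, ∀ x, |b k u x| ≤ A := by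
  choose A hA0 hA using fun k => (hb k).bound hS
  exact ⟨∑ k, A k, Finset.sum_nonneg fun k _ => hA0 k, fun k u hu x =>
    (hA k u hu x).trans (Finset.single_le_sum (fun k _ => hA0 k) (Finset.mem_univ k))⟩

/-- Boundedness in every order. -/
theorem exists_sq2_pdW_op_le (hρ : IsWeight ρ) (F : Flow) (ha : IsAmp a) (w : List (Fin 4)) :
    ∃ C, 0 ≤ C ∧ ∀ e ∈ Icc (0 : ℝ) 1, ∀ f : E4 → ℝ, ContDiff ℝ ∞ f → HasCompactSupport f →
      sq2 (pdW w (op ρ a F e f)) ≤ C * sob w.length f := by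
  obtain ⟨ι, _, b, z, hb, hz, -, hrep⟩ := exists_rep hρ F w ha
  obtain ⟨D, hD0, hD⟩ := F.exists_det_bound (isCompact_params hρ)
  obtain ⟨A, -, hA⟩ := exists_common_bound hb (isCompact_params hρ)
  refine ⟨(Fintype.card ι : ℝ) ^ 2 * (∫ v, |ρ v|) ^ 2 * A ^ 2 * D, by positivity,
    fun e he f hf hs => ?_⟩
  rw [hrep e f hf]
  exact sq2_sum_op_le hρ hD he hb (fun k v hv x => hA k _ (smul_mem_params he hv) x) hz hD0 hf hs

/-- An amplitude changes by at most a multiple of the parameter. -/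
lemma IsAmp.exists_lip {b : E4 → E4 → ℝ} (hb : IsAmp b) (R : ℝ) :
    ∃ L, 0 ≤ L ∧ ∀ u ∈ closedBall (0 : E4) R, ∀ x, |b u x - b 0 x| ≤ L * ‖u‖ := by
  obtain ⟨K, c, hK, h⟩ := hb.compact
  have hd : ContDiff ℝ ∞ fun q : E4 × E4 => fderiv ℝ (fun u => b u q.2) q.1 :=
    ContDiff.fderiv (m := ∞) (f := fun q : E4 × E4 => fun u => b u q.2)
      (hb.smooth.comp (contDiff_snd.prodMk (contDiff_snd.comp contDiff_fst))) contDiff_fst le_rfl
  obtain ⟨L, hL⟩ := ((isCompact_closedBall (0 : E4) R).prod hK).exists_bound_of_continuousOn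
    hd.continuous.continuousOn
  refine ⟨max L 0, le_max_right _ _, fun u hu x => ?_⟩
  by_cases hx : x ∈ K
  · have hR : (0 : E4) ∈ closedBall (0 : E4) R := mem_closedBall_self
      ((norm_nonneg u).trans (mem_closedBall_zero_iff.1 hu))
    have hdiff : ∀ u' : E4, DifferentiableAt ℝ (fun u => b u x) u' := fun u' =>
      (hb.smooth.comp (contDiff_id.prodMk contDiff_const)).differentiable (by simp) u'
    have := (convex_closedBall (0 : E4) R).norm_image_sub_le_of_norm_fderiv_le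
      (fun u' _ => hdiff u') (fun u' hu' => (hL (u', x) ⟨hu', hx⟩).trans (le_max_left L 0)) hR hu
    simpa using this
  · simp only [h u x hx, h 0 x hx, sub_self, abs_zero]
    positivity

/-- An amplitude vanishing at parameter zero gives a factor of the scale, in every order. -/
theorem exists_sq2_pdW_op_vanish (hρ : IsWeight ρ) (F : Flow) (ha : IsAmp a)
    (h0 : ∀ x, a 0 x = 0) (w : List (Fin 4)) :
    ∃ C, 0 ≤ C ∧ ∀ e ∈ Icc (0 : ℝ) 1, ∀ f : E4 → ℝ, ContDiff ℝ ∞ f → HasCompactSupport f →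
      sq2 (pdW w (op ρ a F e f)) ≤ C * e ^ 2 * sob w.length f := by
  obtain ⟨ι, _, b, z, hb, hz, hi, hrep⟩ := exists_rep hρ F w ha
  obtain ⟨D, hD0, hD⟩ := F.exists_det_bound (isCompact_params hρ)
  obtain ⟨R, hR⟩ := hρ.compact.isCompact.isBounded.subset_closedBall (0 : E4)
  choose L hL0 hL using fun k => (hb k).exists_lip (max R 0)
  set A := (∑ k, L k) * max R 0 with hA
  refine ⟨(Fintype.card ι : ℝ) ^ 2 * (∫ v, |ρ v|) ^ 2 * A ^ 2 * D, by positivity,
    fun e he f hf hs => ?_⟩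
  rw [hrep e f hf]
  refine (sq2_sum_op_le (A := e * A) hρ hD he hb (fun k v hv x => ?_) hz hD0 hf hs).trans
    (le_of_eq (by ring))
  have hv' : ‖v‖ ≤ max R 0 := (mem_closedBall_zero_iff.1 (hR hv)).trans (le_max_left R 0)
  have hev : ‖e • v‖ ≤ e * max R 0 := by
    rw [norm_smul, Real.norm_eq_abs, abs_of_nonneg he.1]
    exact mul_le_mul_of_nonneg_left hv' he.1
  have h1 := hL k (e • v) (mem_closedBall_zero_iff.2
    (hev.trans (mul_le_of_le_one_left (le_max_right R 0) he.2))) x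
  rw [(hi k).2 h0 x, sub_zero] at h1
  calc |b k (e • v) x| ≤ L k * ‖e • v‖ := h1
    _ ≤ (∑ k, L k) * (e * max R 0) :=
        mul_le_mul (Finset.single_le_sum (fun k _ => hL0 k) (Finset.mem_univ k)) hev (norm_nonneg _)
          (Finset.sum_nonneg fun k _ => hL0 k)
    _ = e * A := by rw [hA]; ring

/-! ### Sup bounds -/

/-- Boundedness in the sup norms: the values of `f` on the moved points control the derivatives. -/
theorem exists_abs_pdW_op_le (hρ : IsWeight ρ) (F : Flow) (ha : IsAmp a) (w : List (Fin 4)) :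
    ∃ C, 0 ≤ C ∧ ∀ e ∈ Icc (0 : ℝ) 1, ∀ f : E4 → ℝ, ContDiff ℝ ∞ f → ∀ (x : E4) (S : ℝ),
      (∀ z : List (Fin 4), z.length ≤ w.length → ∀ v ∈ tsupport ρ,
        |pdW z f (F.fwd (e • v) x)| ≤ S) → |pdW w (op ρ a F e f) x| ≤ C * S := by
  obtain ⟨ι, _, b, z, hb, hz, -, hrep⟩ := exists_rep hρ F w ha
  obtain ⟨A, hA0, hA⟩ := exists_common_bound hb (isCompact_params hρ)
  refine ⟨(Fintype.card ι : ℝ) * ((∫ v, |ρ v|) * A), by positivity, fun e he f hf x S hS => ?_⟩
  rw [hrep e f hf]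
  refine (Finset.abs_sum_le_sum_abs _ _).trans ?_
  refine (Finset.sum_le_card_nsmul _ _ ((∫ v, |ρ v|) * A * S) fun k _ => ?_).trans
    (le_of_eq (by rw [Finset.card_univ, nsmul_eq_mul]; ring))
  refine abs_integral_le_integral_abs.trans ?_
  rw [mul_assoc, ← integral_mul_const]
  refine integral_mono_of_nonneg (Eventually.of_forall fun v => abs_nonneg _)
    ((hρ.smooth.continuous.abs.integrable_of_hasCompactSupport hρ.compact.norm).mul_const _)
    (Eventually.of_forall fun v => ?_)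
  show |ρ v * (b k (e • v) x * pdW (z k) f (F.fwd (e • v) x))| ≤ |ρ v| * (A * S)
  rw [abs_mul, abs_mul]
  by_cases hv : v ∈ tsupport ρ
  · exact mul_le_mul_of_nonneg_left
      (mul_le_mul (hA k _ (smul_mem_params he hv) x) (hS _ (hz k) v hv) (abs_nonneg _) hA0)
      (abs_nonneg _)
  · simp [image_eq_zero_of_notMem_tsupport hv]

end Vale.Agent.P204.Full.Op
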