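import Vale.Agent.P204.Full.Flat

/-!
P204, module F6: flow families on the model space and averaged pullback operators (helper55).

A `Flow` is a smooth family of diffeomorphisms, globally defined in both variables, the identity
at parameter zero and outside a compact set. `op ρ a F e f` is the scalar operator with amplitude
`a`, and `avg2`, `avg1` average the pullbacks of two-forms and one-forms.
-/

namespace Vale.Agent.P204.Full.Op

open MeasureTheory
open scoped ContDiff

/-- a smooth family of diffeomorphisms of the model space with its inverse family -/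
structure Flow where
  fwd : E4 → E4 → E4
  bwd : E4 → E4 → E4
  supp : Set E4
  compact_supp : IsCompact supp
  smooth_fwd : ContDiff ℝ ∞ (fun p : E4 × E4 => fwd p.1 p.2)
  smooth_bwd : ContDiff ℝ ∞ (fun p : E4 × E4 => bwd p.1 p.2)
  fwd_zero : ∀ x, fwd 0 x = x
  bwd_fwd : ∀ u x, bwd u (fwd u x) = x
  fwd_bwd : ∀ u x, fwd u (bwd u x) = x
  fwd_out : ∀ u x, x ∉ supp → fwd u x = x

/-- iterated partial derivatives along a word -/
noncomputable def pdW {G : Type} [NormedAddCommGroup G] [NormedSpace ℝ G] :
    List (Fin 4) → (E4 → G) → E4 → G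
  | [], f => f
  | a :: w, f => pd (pdW w f) a

/-- the square of the `L²` norm -/
noncomputable def sq2 (f : E4 → ℝ) : ℝ := ∫ x, f x ^ 2

/-- words of length at most `j` -/
noncomputable def words (j : ℕ) : Finset (List (Fin 4)) :=
  (Finset.range (j + 1)).biUnion fun i =>
    (Finset.univ : Finset (Fin i → Fin 4)).image List.ofFn

/-- the square of the `H^j` norm -/
noncomputable def sob (j : ℕ) (f : E4 → ℝ) : ℝ := ∑ w ∈ words j, sq2 (pdW w f)

/-- scalar operator: average over `v` of amplitude times pullback at parameter `e • v` -/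
noncomputable def op (ρ : E4 → ℝ) (a : E4 → E4 → ℝ) (F : Flow) (e : ℝ) (f : E4 → ℝ) (x : E4) : ℝ :=
  ∫ v, ρ v * (a (e • v) x * f (F.fwd (e • v) x))

/-- smooth compactly supported weight -/
structure IsWeight (ρ : E4 → ℝ) : Prop where
  smooth : ContDiff ℝ ∞ ρ
  compact : HasCompactSupport ρ

/-- smooth amplitude, constant outside a compact set of the space variable -/
structure IsAmp (a : E4 → E4 → ℝ) : Prop where
  smooth : ContDiff ℝ ∞ (fun p : E4 × E4 => a p.1 p.2)
  compact : ∃ (K : Set E4) (c : ℝ), IsCompact K ∧ ∀ u x, x ∉ K → a u x = c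

/-- on the support of `a` the flow moves in every direction when the parameter varies -/
def Submersive (F : Flow) (a : E4 → E4 → ℝ) : Prop :=
  ∃ K : Set E4, IsCompact K ∧ (∀ u x, x ∉ K → a u x = 0) ∧
    ∀ x ∈ K, (jac (fun u => F.fwd u x) 0).det ≠ 0

/-- pullback of one-form coefficients -/
noncomputable def pull1 (Φ : E4 → E4) (α : E4 → C1) (x : E4) : C1 :=
  fun b => ∑ c, jac Φ x c b * α (Φ x) c

/-- averaged pullback of a one-form -/
noncomputable def avg1 (ρ : E4 → ℝ) (F : Flow) (e : ℝ) (α : E4 → C1) (x : E4) : C1 :=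
  fun b => ∫ v, ρ v * pull1 (F.fwd (e • v)) α x b

/-- averaged pullback of a two-form -/
noncomputable def avg2 (ρ : E4 → ℝ) (F : Flow) (e : ℝ) (w : E4 → C2) (x : E4) : C2 :=
  fun a b => ∫ v, ρ v * pull (F.fwd (e • v)) w x a b

end Vale.Agent.P204.Full.Op
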