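import Vale.Agent.P204.Full.Op.Bounds

/-!
P204, module F6: the operator at scale `e` differs from multiplication by the amplitude at
parameter zero by `O(e)` with the loss of one derivative (helper55).
-/

namespace Vale.Agent.P204.Full.Op

open MeasureTheory Set Filter Metric
open scoped ContDiff Topology

variable {ρ : E4 → ℝ} {a : E4 → E4 → ℝ}

namespace Flow

variable (F : Flow)

lemma contDiff_duFwd :
    ContDiff ℝ ∞ fun q : E4 × E4 => fderiv ℝ (fun u => F.fwd u q.2) q.1 :=
  ContDiff.fderiv (m := ∞) (f := fun q : E4 × E4 => fun u => F.fwd u q.2)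
    (F.smooth_fwd.comp (contDiff_snd.prodMk (contDiff_snd.comp contDiff_fst))) contDiff_fst le_rfl

lemma exists_du_bound (R : ℝ) :
    ∃ L, 0 ≤ L ∧ ∀ u ∈ closedBall (0 : E4) R, ∀ x, ‖fderiv ℝ (fun u => F.fwd u x) u‖ ≤ L := by
  obtain ⟨L, hL⟩ := ((isCompact_closedBall (0 : E4) R).prod F.compact_supp).exists_bound_of_continuousOn
    F.contDiff_duFwd.continuous.continuousOn
  refine ⟨max L 0, le_max_right _ _, fun u hu x => ?_⟩
  by_cases hx : x ∈ F.supp
  · exact (hL (u, x) ⟨hu, hx⟩).trans (le_max_left _ _)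
  · simp [show (fun u => F.fwd u x) = fun _ => x from funext fun u => F.fwd_out u x hx]

lemma differentiable_fwd_param (x : E4) : Differentiable ℝ fun u => F.fwd u x :=
  (F.smooth_fwd.comp (contDiff_id.prodMk contDiff_const)).differentiable (by simp)

/-- Points move by at most a multiple of the parameter. -/
lemma exists_move_bound (R : ℝ) :
    ∃ L, 0 ≤ L ∧ ∀ u ∈ closedBall (0 : E4) R, ∀ x, ‖F.fwd u x - x‖ ≤ L * ‖u‖ := by
  obtain ⟨L, hL0, hL⟩ := F.exists_du_bound R
  refine ⟨L, hL0, fun u hu x => ?_⟩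
  have h0 : (0 : E4) ∈ closedBall (0 : E4) R :=
    mem_closedBall_self ((norm_nonneg u).trans (mem_closedBall_zero_iff.1 hu))
  simpa [F.fwd_zero] using (convex_closedBall (0 : E4) R).norm_image_sub_le_of_norm_fderiv_le
    (fun u' _ => F.differentiable_fwd_param x u') (fun u' hu' => hL u' hu' x) h0 hu

end Flow

lemma abs_apply_le_norm (z : E4) (c : Fin 4) : |z c| ≤ ‖z‖ := by
  simpa [Real.norm_eq_abs] using PiLp.norm_apply_le z c

/-- The translation estimate along a flow. -/
lemma exists_sq2_comp_sub_le (hρ : IsWeight ρ) (F : Flow) :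
    ∃ C, 0 ≤ C ∧ ∀ u ∈ params ρ, ∀ g : E4 → ℝ, ContDiff ℝ ∞ g → HasCompactSupport g →
      sq2 (fun x => g (F.fwd u x) - g x) ≤ C * ‖u‖ ^ 2 * sob 1 g := by
  obtain ⟨D, hD0, hD⟩ := F.exists_det_bound (isCompact_params hρ)
  obtain ⟨R, hR⟩ := (isCompact_params hρ).isBounded.subset_closedBall (0 : E4)
  obtain ⟨L, hL0, hL⟩ := F.exists_du_bound R
  refine ⟨16 * (L ^ 2 * D), by positivity, fun u hu g hg hs => ?_⟩
  set φ : ℝ → E4 → ℝ := fun s x =>
    ∑ c, fderiv ℝ (fun u' => F.fwd u' x) (s • u) u c * pd g c (F.fwd (s • u) x) with hφ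
  set k : ℝ → ℝ := (Icc (0 : ℝ) 1).indicator fun _ => 1 with hk
  have hsu : ContDiff ℝ ∞ fun q : ℝ × E4 => ((q.1 • u, q.2) : E4 × E4) :=
    (contDiff_fst.smul contDiff_const).prodMk contDiff_snd
  have hφc : Continuous fun q : ℝ × E4 => φ q.1 q.2 := by
    refine continuous_finsetSum _ fun c _ => ?_
    exact ((PiLp.continuous_apply 2 (fun _ => ℝ) c).comp
      ((F.contDiff_duFwd.comp hsu).continuous.clm_apply continuous_const)).mul
      ((contDiff_pd hg c).continuous.comp (F.smooth_fwd.comp hsu).continuous)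
  have hftc : ∀ x, g (F.fwd u x) - g x = ∫ s, k s * φ s x := by
    intro x
    have hd : ∀ s : ℝ, HasDerivAt (fun s : ℝ => g (F.fwd (s • u) x)) (φ s x) s := by
      intro s
      have h0 : HasDerivAt (fun s : ℝ => s • u) u s := by
        simpa using (hasDerivAt_id s).smul_const u
      have h1 : HasDerivAt (fun s : ℝ => F.fwd (s • u) x)
          (fderiv ℝ (fun u' => F.fwd u' x) (s • u) u) s :=
        HasFDerivAt.comp_hasDerivAt (l := fun u' => F.fwd u' x) s
          (F.differentiable_fwd_param x (s • u)).hasFDerivAt h0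
      have h2 := (hg.differentiable (by simp) (F.fwd (s • u) x)).hasFDerivAt.comp_hasDerivAt s h1
      rw [fderiv_apply_eq_sum] at h2
      exact h2.congr_deriv (by simp [hφ])
    have h3 := intervalIntegral.integral_eq_sub_of_hasDerivAt (a := (0 : ℝ)) (b := 1)
      (fun s _ => hd s) ((hφc.comp (continuous_id.prodMk continuous_const)).intervalIntegrable 0 1)
    simp only [one_smul, zero_smul, F.fwd_zero] at h3
    rw [← h3, intervalIntegral.integral_of_le zero_le_one, ← integral_Icc_eq_integral_Ioc,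
      ← integral_indicator measurableSet_Icc]
    exact integral_congr_ae (Eventually.of_forall fun s => by
      by_cases hs : s ∈ Icc (0 : ℝ) 1 <;> simp [hk, hs])
  rw [show (fun x => g (F.fwd u x) - g x) = fun x => ∫ s, k s * φ s x from funext hftc]
  have hki : Integrable k := (integrable_indicator_iff measurableSet_Icc).2
    (integrableOn_const isCompact_Icc.measure_lt_top.ne)
  have hk1 : (∫ s, |k s|) = 1 := by
    have : (fun s => |k s|) = k := funext fun s => by
      by_cases hs : s ∈ Icc (0 : ℝ) 1 <;> simp [hk, hs]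
    rw [this, hk, integral_indicator measurableSet_Icc]
    simp
  have hkS : ∀ s, s ∉ Icc (0 : ℝ) 1 → k s = 0 := fun s hs' => indicator_of_notMem hs' _
  refine (sq2_avg_le hki isCompact_Icc hkS hφc
    (K := F.pre (params ρ) (tsupport g)) (F.isCompact_pre (isCompact_params hρ) hs.isCompact)
    (fun s hs' x hx => ?_) (B := 16 * (L ^ 2 * D) * ‖u‖ ^ 2 * sob 1 g) fun s hs' => ?_).trans
    (le_of_eq (by rw [hk1]; ring))
  · refine Finset.sum_eq_zero fun c _ => ?_
    have h0 : pd g c (F.fwd (s • u) x) = 0 := by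
      refine image_eq_zero_of_notMem_tsupport fun h => hx ?_
      exact ⟨(s • u, F.fwd (s • u) x), ⟨smul_mem_params_of_mem hu hs',
        (tsupport_fderiv_apply_subset ℝ (ev4 c)) h⟩, F.bwd_fwd _ _⟩
    simp [h0]
  · have hmem := smul_mem_params_of_mem hu hs'
    have hcont : ∀ c, Continuous fun x =>
        fderiv ℝ (fun u' => F.fwd u' x) (s • u) u c * pd g c (F.fwd (s • u) x) := fun c =>
      ((PiLp.continuous_apply 2 (fun _ => ℝ) c).comp
        ((F.contDiff_duFwd.continuous.comp (continuous_const.prodMk continuous_id)).clm_apply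
          continuous_const)).mul
        ((contDiff_pd hg c).continuous.comp (F.contDiff_fwd_slice _).continuous)
    have hcs : ∀ c, HasCompactSupport fun x =>
        fderiv ℝ (fun u' => F.fwd u' x) (s • u) u c * pd g c (F.fwd (s • u) x) := fun c =>
      HasCompactSupport.intro (F.isCompact_pre (isCompact_params hρ)
        (hasCompactSupport_pd hs c).isCompact) fun x hx => by
        simp [F.comp_eq_zero_of_notMem_pre hmem hx]
    refine (sq2_sum_le Finset.univ (fun c _ => hcont c) (fun c _ => hcs c)).trans ?_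
    refine (mul_le_mul_of_nonneg_left (Finset.sum_le_sum (g := fun _ => L ^ 2 * ‖u‖ ^ 2 *
      (D * sob 1 g)) fun c _ => ?_) (Nat.cast_nonneg _)).trans (le_of_eq ?_)
    · have hc : Continuous fun x => pd g c (F.fwd (s • u) x) :=
        (contDiff_pd hg c).continuous.comp (F.contDiff_fwd_slice _).continuous
      have hc' : HasCompactSupport fun x => pd g c (F.fwd (s • u) x) :=
        HasCompactSupport.intro (F.isCompact_pre (isCompact_params hρ)
          (hasCompactSupport_pd hs c).isCompact) fun x hx => F.comp_eq_zero_of_notMem_pre hmem hx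
      refine le_trans (integral_mono_of_nonneg (Eventually.of_forall fun x => sq_nonneg _)
        ((integrable_sq hc hc').const_mul (L ^ 2 * ‖u‖ ^ 2)) (Eventually.of_forall fun x => ?_)) ?_
      · show (fderiv ℝ (fun u' => F.fwd u' x) (s • u) u c * pd g c (F.fwd (s • u) x)) ^ 2 ≤
          L ^ 2 * ‖u‖ ^ 2 * pd g c (F.fwd (s • u) x) ^ 2
        rw [mul_pow, ← mul_pow L]
        refine mul_le_mul_of_nonneg_right ?_ (sq_nonneg _)
        have := (abs_apply_le_norm (fderiv ℝ (fun u' => F.fwd u' x) (s • u) u) c).trans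
          ((ContinuousLinearMap.le_opNorm _ u).trans
            (mul_le_mul_of_nonneg_right (hL _ (hR hmem) x) (norm_nonneg u)))
        exact sq_le_sq' (abs_le.1 this).1 (abs_le.1 this).2
      · rw [integral_const_mul]
        exact mul_le_mul_of_nonneg_left
          ((F.sq2_comp_le (hD _ hmem) (contDiff_pd hg c).continuous (hasCompactSupport_pd hs c)).trans
            (mul_le_mul_of_nonneg_left (sq2_pdW_le_sob (w := [c]) le_rfl g) hD0)) (by positivity)
    · simp only [Finset.sum_const, Finset.card_univ, Fintype.card_fin, nsmul_eq_mul]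
      push_cast
      ring

lemma sob_pdW_le {z : List (Fin 4)} {j : ℕ} (h : z.length < j) (f : E4 → ℝ) :
    sob 1 (pdW z f) ≤ (words 1).card * sob j f := by
  refine (Finset.sum_le_card_nsmul _ _ (sob j f) fun w hw => ?_).trans (le_of_eq (nsmul_eq_mul _ _))
  rw [← pdW_append]
  refine sq2_pdW_le_sob ?_ f
  simp only [words, Finset.mem_biUnion, Finset.mem_range, Finset.mem_image] at hw
  obtain ⟨i, hi, u, -, rfl⟩ := hw
  simp only [List.length_append, List.length_ofFn]
  omega

/-- the difference from parameter zero, split into an amplitude change and a translation -/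
lemma pdW_diff_eq (hρ : IsWeight ρ) (F : Flow) (ha : IsAmp a) {w : List (Fin 4)} {ι : Type} [Fintype ι]
    {b : ι → E4 → E4 → ℝ} (hb : ∀ k, IsAmp (b k)) {z : ι → List (Fin 4)}
    (hrep : ∀ (e : ℝ) (f : E4 → ℝ), ContDiff ℝ ∞ f →
      pdW w (op ρ a F e f) = fun x => ∑ k, op ρ (b k) F e (pdW (z k) f) x)
    {f : E4 → ℝ} (hf : ContDiff ℝ ∞ f) (e : ℝ) :
    (pdW w fun x => op ρ a F e f x - (∫ v, ρ v) * (a 0 x * f x)) =
      fun x => ∑ k, (op ρ (fun u x => b k u x - b k 0 x) F e (pdW (z k) f) x +
        ∫ v, ρ v * (b k 0 x * (pdW (z k) f (F.fwd (e • v) x) - pdW (z k) f x))) := by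
  let g : ι → E4 → ℝ := fun k => pdW (z k) f
  have hg : ∀ k, ContDiff ℝ ∞ (g k) := fun k => contDiff_pdW hf _
  let b' : ι → E4 → E4 → ℝ := fun k u x => b k u x - b k 0 x
  have hb' : ∀ k, ContDiff ℝ ∞ (fun q : E4 × E4 => b' k q.1 q.2) := fun k =>
    (hb k).smooth.sub ((hb k).smooth.comp (contDiff_const.prodMk contDiff_snd))
  let φ : ι → E4 → E4 → ℝ := fun k v x => b k 0 x * (g k (F.fwd (e • v) x) - g k x)
  have hφc : ∀ k, Continuous fun q : E4 × E4 => φ k q.1 q.2 := fun k =>
    ((contDiff_slice (hb k).smooth 0).continuous.comp continuous_snd).mul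
      (((hg k).continuous.comp (F.smooth_fwd.continuous.comp
        ((continuous_fst.const_smul e).prodMk continuous_snd))).sub
        ((hg k).continuous.comp continuous_snd))
  have hsplit : ∀ k x, op ρ (b k) F e (g k) x - op ρ (b k) F 0 (g k) x =
      op ρ (b' k) F e (g k) x + ∫ v, ρ v * φ k v x := by
    intro k x
    have hi : Integrable fun v => ρ v * φ k v x := by
      simpa only [smul_eq_mul] using
        integrable_par (g := φ k) hρ.smooth.continuous hρ.compact (hφc k) x
    rw [op, op, op, ← integral_sub (integrable_op hρ (hb k).smooth (hg k) e x)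
      (integrable_op hρ (hb k).smooth (hg k) 0 x), ← integral_add
      (integrable_op hρ (hb' k) (hg k) e x) hi]
    refine integral_congr_ae (Eventually.of_forall fun v => ?_)
    simp only [zero_smul, F.fwd_zero, b', φ]
    ring
  have h0 : (fun x => op ρ a F e f x - (∫ v, ρ v) * (a 0 x * f x)) =
      fun x => op ρ a F e f x + (-1) * op ρ a F 0 f x := by
    funext x
    rw [op_zero]
    ring
  rw [h0, pdW_add (contDiff_op hρ ha.smooth hf e) (contDiff_const.mul (contDiff_op hρ ha.smooth hf 0)),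
    pdW_const_mul (contDiff_op hρ ha.smooth hf 0), hrep e f hf, hrep 0 f hf]
  funext x
  simp only []
  rw [neg_one_mul, ← sub_eq_add_neg, ← Finset.sum_sub_distrib]
  exact Finset.sum_congr rfl fun k _ => hsplit k x

/-- Difference from parameter zero, in every order. -/
theorem exists_sq2_pdW_diff_le (hρ : IsWeight ρ) (F : Flow) (ha : IsAmp a) (w : List (Fin 4)) :
    ∃ C, 0 ≤ C ∧ ∀ e ∈ Icc (0 : ℝ) 1, ∀ f : E4 → ℝ, ContDiff ℝ ∞ f → HasCompactSupport f →
      sq2 (pdW w fun x => op ρ a F e f x - (∫ v, ρ v) * (a 0 x * f x)) ≤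
        C * e ^ 2 * sob (w.length + 1) f := by
  obtain ⟨ι, _, b, z, hb, hz, -, hrep⟩ := exists_rep hρ F w ha
  obtain ⟨D, hD0, hD⟩ := F.exists_det_bound (isCompact_params hρ)
  obtain ⟨C₁, hC₁0, hC₁⟩ := exists_sq2_comp_sub_le hρ F
  obtain ⟨R, hR⟩ := hρ.compact.isCompact.isBounded.subset_closedBall (0 : E4)
  obtain ⟨A, hA0, hA⟩ := exists_common_bound hb (isCompact_singleton (x := (0 : E4)))
  choose L hL0 hL using fun k => (hb k).exists_lip (max R 0)
  set Λ := (∑ k, L k) * max R 0 with hΛ
  set m := (∫ v, |ρ v|) with hm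
  refine ⟨(Fintype.card ι : ℝ) ^ 2 *
    (2 * (m ^ 2 * (Λ ^ 2 * D)) +
      2 * (m ^ 2 * (A ^ 2 * (C₁ * max R 0 ^ 2 * (words 1).card)))), by positivity,
    fun e he f hf hs => ?_⟩
  have hnorm : ∀ v ∈ tsupport ρ, ‖e • v‖ ≤ e * max R 0 := by
    intro v hv
    rw [norm_smul, Real.norm_eq_abs, abs_of_nonneg he.1]
    exact mul_le_mul_of_nonneg_left ((mem_closedBall_zero_iff.1 (hR hv)).trans (le_max_left R 0)) he.1
  -- the two pieces of each term
  let g : ι → E4 → ℝ := fun k => pdW (z k) f
  let b' : ι → E4 → E4 → ℝ := fun k u x => b k u x - b k 0 x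
  have hb' : ∀ k, IsAmp (b' k) := fun k => by
    refine ⟨(hb k).smooth.sub ((hb k).smooth.comp (contDiff_const.prodMk contDiff_snd)), ?_⟩
    obtain ⟨K, c, hK, h⟩ := (hb k).compact
    exact ⟨K, 0, hK, fun u x hx => by simp [b', h u x hx, h 0 x hx]⟩
  have hg : ∀ k, ContDiff ℝ ∞ (g k) := fun k => contDiff_pdW hf _
  have hgs : ∀ k, HasCompactSupport (g k) := fun k => hasCompactSupport_pdW hs _
  let φ : ι → E4 → E4 → ℝ := fun k v x => b k 0 x * (g k (F.fwd (e • v) x) - g k x)
  have hφc : ∀ k, Continuous fun q : E4 × E4 => φ k q.1 q.2 := fun k =>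
    ((contDiff_slice (hb k).smooth 0).continuous.comp continuous_snd).mul
      (((hg k).continuous.comp (F.smooth_fwd.continuous.comp
        ((continuous_fst.const_smul e).prodMk continuous_snd))).sub
        ((hg k).continuous.comp continuous_snd))
  have hρi : Integrable ρ := hρ.smooth.continuous.integrable_of_hasCompactSupport hρ.compact
  have hdiff := pdW_diff_eq hρ F ha hb hrep hf e
  rw [hdiff]
  have hc2 : ∀ k, Continuous fun x => ∫ v, ρ v * φ k v x := fun k => by
    refine (contDiff_parInt (G := ℝ) hρ.smooth.continuous hρ.compact (g := φ k) ?_).continuous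
    exact (((contDiff_slice (hb k).smooth 0)).comp contDiff_snd).mul
      (((hg k).comp (F.smooth_fwd.comp ((contDiff_fst.const_smul e).prodMk contDiff_snd))).sub
        ((hg k).comp contDiff_snd))
  let K := fun k => F.pre (params ρ) (tsupport (g k)) ∪ tsupport (g k)
  have hK : ∀ k, IsCompact (K k) := fun k =>
    (F.isCompact_pre (isCompact_params hρ) (hgs k).isCompact).union (hgs k).isCompact
  have hφK : ∀ k, ∀ v ∈ tsupport ρ, ∀ x, x ∉ K k → φ k v x = 0 := by
    intro k v hv x hx
    simp only [K, mem_union, not_or] at hx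
    simp [φ, F.comp_eq_zero_of_notMem_pre (smul_mem_params he hv) hx.1,
      image_eq_zero_of_notMem_tsupport hx.2]
  have hs2 : ∀ k, HasCompactSupport fun x => ∫ v, ρ v * φ k v x := fun k =>
    HasCompactSupport.intro (hK k) fun x hx => integral_eq_zero_of_ae
      (Eventually.of_forall fun v => by
        by_cases hv : v ∈ tsupport ρ
        · simp [hφK k v hv x hx]
        · simp [image_eq_zero_of_notMem_tsupport hv])
  refine (sq2_sum_le Finset.univ
    (fun k _ => ((contDiff_op hρ (hb' k).smooth (hg k) e).continuous).add (hc2 k))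
    (fun k _ => (hasCompactSupport_op hρ (b' k) F he (hgs k)).add (hs2 k))).trans ?_
  refine (mul_le_mul_of_nonneg_left (Finset.sum_le_sum (g := fun _ =>
    (2 * (m ^ 2 * (Λ ^ 2 * D)) + 2 * (m ^ 2 * (A ^ 2 * (C₁ * max R 0 ^ 2 * (words 1).card)))) *
      e ^ 2 * sob (w.length + 1) f) fun k _ => ?_) (Nat.cast_nonneg _)).trans (le_of_eq ?_)
  · refine (sq2_add_le (contDiff_op hρ (hb' k).smooth (hg k) e).continuous
      (hasCompactSupport_op hρ (b' k) F he (hgs k)) (hc2 k) (hs2 k)).trans ?_
    rw [add_mul, add_mul]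
    refine add_le_add ?_ ?_
    · have h1 : ∀ v ∈ tsupport ρ, ∀ x, |b' k (e • v) x| ≤ e * Λ := by
        intro v hv x
        refine (hL k (e • v) (mem_closedBall_zero_iff.2 ((hnorm v hv).trans
          (mul_le_of_le_one_left (le_max_right R 0) he.2))) x).trans ?_
        calc L k * ‖e • v‖ ≤ (∑ k, L k) * (e * max R 0) :=
              mul_le_mul (Finset.single_le_sum (fun k _ => hL0 k) (Finset.mem_univ k)) (hnorm v hv)
                (norm_nonneg _) (Finset.sum_nonneg fun k _ => hL0 k)
          _ = e * Λ := by rw [hΛ]; ring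
      refine (mul_le_mul_of_nonneg_left ((sq2_op_le_of_bound hρ (hb' k) hD he h1 (hg k) (hgs k)).trans
        (mul_le_mul_of_nonneg_left (mul_le_mul_of_nonneg_left (mul_le_mul_of_nonneg_left
          (sq2_pdW_le_sob ((hz k).trans (Nat.le_succ _)) f) hD0) (sq_nonneg _)) (sq_nonneg _)))
        (by norm_num)).trans (le_of_eq (by ring))
    · refine (mul_le_mul_of_nonneg_left (sq2_avg_le hρi hρ.compact.isCompact
        (fun v hv => image_eq_zero_of_notMem_tsupport hv) (hφc k) (hK k) (hφK k)
        (B := A ^ 2 * (C₁ * (e * max R 0) ^ 2 * ((words 1).card * sob (w.length + 1) f)))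
        fun v hv => ?_) (by norm_num)).trans (le_of_eq (by ring))
      have hcu : Continuous fun x => g k (F.fwd (e • v) x) - g k x :=
        ((hg k).continuous.comp (F.contDiff_fwd_slice _).continuous).sub (hg k).continuous
      have hcs : HasCompactSupport fun x => g k (F.fwd (e • v) x) - g k x :=
        HasCompactSupport.intro (hK k) fun x hx => by
          simp only [K, mem_union, not_or] at hx
          simp [F.comp_eq_zero_of_notMem_pre (smul_mem_params he hv) hx.1,
            image_eq_zero_of_notMem_tsupport hx.2]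
      refine le_trans (integral_mono_of_nonneg (Eventually.of_forall fun x => sq_nonneg _)
        ((integrable_sq hcu hcs).const_mul (A ^ 2)) (Eventually.of_forall fun x => ?_)) ?_
      · show (b k 0 x * (g k (F.fwd (e • v) x) - g k x)) ^ 2 ≤ A ^ 2 * _
        rw [mul_pow]
        exact mul_le_mul_of_nonneg_right (sq_le_sq' (abs_le.1 (hA k 0 rfl x)).1
          (abs_le.1 (hA k 0 rfl x)).2) (sq_nonneg _)
      · rw [integral_const_mul]
        refine mul_le_mul_of_nonneg_left ((hC₁ _ (smul_mem_params he hv) (g k) (hg k) (hgs k)).trans ?_)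
          (sq_nonneg A)
        exact mul_le_mul (mul_le_mul_of_nonneg_left (pow_le_pow_left₀ (norm_nonneg _) (hnorm v hv) 2)
          hC₁0) (sob_pdW_le (Nat.lt_succ_of_le (hz k)) f) (sob_nonneg _ _)
          (mul_nonneg hC₁0 (sq_nonneg _))
  · rw [Finset.sum_const, Finset.card_univ, nsmul_eq_mul]
    ring

/-- The difference from parameter zero in the sup norms. -/
theorem exists_abs_pdW_diff_le (hρ : IsWeight ρ) (F : Flow) (ha : IsAmp a) (w : List (Fin 4)) :
    ∃ C, 0 ≤ C ∧ ∀ e ∈ Icc (0 : ℝ) 1, ∀ f : E4 → ℝ, ContDiff ℝ ∞ f → ∀ S : ℝ,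
      (∀ z : List (Fin 4), z.length ≤ w.length + 1 → ∀ x, |pdW z f x| ≤ S) → ∀ x,
        |pdW w (fun x => op ρ a F e f x - (∫ v, ρ v) * (a 0 x * f x)) x| ≤ C * e * S := by
  obtain ⟨ι, _, b, z, hb, hz, -, hrep⟩ := exists_rep hρ F w ha
  obtain ⟨R₀, hR₀⟩ := hρ.compact.isCompact.isBounded.subset_closedBall (0 : E4)
  set R := max R₀ 0 with hR
  obtain ⟨A, hA0, hA⟩ := exists_common_bound hb (isCompact_closedBall (0 : E4) R)
  choose L hL0 hL using fun k => (hb k).exists_lip R
  obtain ⟨L', hL'0, hL'⟩ := F.exists_move_bound R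
  set m := (∫ v, |ρ v|) with hm
  refine ⟨∑ k, (m * (L k * R) + m * (A * (4 * (L' * R)))), Finset.sum_nonneg fun k _ => by
    have := hL0 k
    have : 0 ≤ R := le_max_right _ _
    positivity, fun e he f hf S hS x => ?_⟩
  have hS0 : 0 ≤ S := (abs_nonneg _).trans (hS [] (Nat.zero_le _) x)
  rw [pdW_diff_eq hρ F ha hb hrep hf e, Finset.sum_mul, Finset.sum_mul]
  refine (Finset.abs_sum_le_sum_abs _ _).trans (Finset.sum_le_sum fun k _ => ?_)
  have hρi : Integrable fun v => |ρ v| :=
    hρ.smooth.continuous.abs.integrable_of_hasCompactSupport hρ.compact.norm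
  have hnorm : ∀ v ∈ tsupport ρ, e • v ∈ closedBall (0 : E4) R ∧ ‖e • v‖ ≤ e * R := by
    intro v hv
    have h1 : ‖e • v‖ ≤ e * R := by
      rw [norm_smul, Real.norm_eq_abs, abs_of_nonneg he.1]
      exact mul_le_mul_of_nonneg_left
        ((mem_closedBall_zero_iff.1 (hR₀ hv)).trans (le_max_left _ _)) he.1
    exact ⟨mem_closedBall_zero_iff.2 (h1.trans (mul_le_of_le_one_left (le_max_right _ _) he.2)), h1⟩
  have est : ∀ (G : E4 → ℝ) (B : ℝ), (∀ v ∈ tsupport ρ, |G v| ≤ B) →
      |∫ v, ρ v * G v| ≤ m * B := fun G B h => by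
    refine abs_integral_le_integral_abs.trans ?_
    rw [hm, ← integral_mul_const]
    refine integral_mono_of_nonneg (Eventually.of_forall fun v => abs_nonneg _)
      (hρi.mul_const _) (Eventually.of_forall fun v => ?_)
    show |ρ v * G v| ≤ |ρ v| * B
    rw [abs_mul]
    by_cases hv : v ∈ tsupport ρ
    · exact mul_le_mul_of_nonneg_left (h v hv) (abs_nonneg _)
    · simp [image_eq_zero_of_notMem_tsupport hv]
  have hg : Differentiable ℝ (pdW (z k) f) := (contDiff_pdW hf _).differentiable (by simp)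
  have hd : ∀ y, ‖fderiv ℝ (pdW (z k) f) y‖ ≤ 4 * S := fun y => by
    refine ContinuousLinearMap.opNorm_le_bound _ (by positivity) fun t => ?_
    rw [fderiv_apply_eq_sum, Real.norm_eq_abs]
    refine (Finset.abs_sum_le_sum_abs _ _).trans
      ((Finset.sum_le_card_nsmul _ _ (S * ‖t‖) fun c _ => ?_).trans (le_of_eq (by simp; ring)))
    rw [smul_eq_mul, abs_mul, mul_comm S]
    exact mul_le_mul (abs_apply_le_norm t c)
      (hS (c :: z k) (by simpa using hz k) y) (abs_nonneg _) (norm_nonneg _)
  refine (abs_add_le _ _).trans (le_trans (add_le_add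
    (est _ (L k * R * e * S) fun v hv => ?_) (est _ (A * (4 * (L' * R)) * e * S) fun v hv => ?_))
    (le_of_eq (by ring)))
  · rw [abs_mul]
    refine mul_le_mul ((hL k _ (hnorm v hv).1 x).trans
      ((mul_le_mul_of_nonneg_left (hnorm v hv).2 (hL0 k)).trans (le_of_eq (by ring))))
      (hS _ ((hz k).trans (Nat.le_succ _)) _) (abs_nonneg _) ?_
    have := hL0 k
    have : 0 ≤ R := le_max_right _ _
    have := he.1
    positivity
  · rw [abs_mul]
    refine le_trans (mul_le_mul
      (hA k 0 (mem_closedBall_self (le_max_right _ _)) x)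
      (((Real.norm_eq_abs _).ge.trans (convex_univ.norm_image_sub_le_of_norm_fderiv_le
        (fun y _ => hg y) (fun y _ => hd y) (mem_univ x) (mem_univ (F.fwd (e • v) x)))).trans
        (mul_le_mul_of_nonneg_left ((hL' _ (hnorm v hv).1 x).trans
          (mul_le_mul_of_nonneg_left (hnorm v hv).2 hL'0)) (by positivity)))
      (abs_nonneg _) hA0) (le_of_eq (by ring))

end Vale.Agent.P204.Full.Op
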