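import Vale.Agent.P204.Full.Op.Diff

/-!
P204, module F6: a submersive amplitude gains derivatives at the price of negative powers of the
scale, by integration by parts in the parameter (helper55).
-/

namespace Vale.Agent.P204.Full.Op

open MeasureTheory Set Filter Metric Matrix
open scoped ContDiff Topology

/-! ### Determinants with smooth entries -/

lemma contDiff_det {P : Type} [NormedAddCommGroup P] [NormedSpace ℝ P] {n : ℕ}
    {A : P → Matrix (Fin n) (Fin n) ℝ} (h : ∀ i j, ContDiff ℝ ∞ fun p => A p i j) :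
    ContDiff ℝ ∞ fun p => (A p).det := by
  simp only [Matrix.det_apply']
  exact ContDiff.sum fun σ _ => contDiff_const.mul (contDiff_prod fun i _ => h _ _)

lemma contDiff_adjugate {P : Type} [NormedAddCommGroup P] [NormedSpace ℝ P] {n : ℕ}
    {A : P → Matrix (Fin n) (Fin n) ℝ} (h : ∀ i j, ContDiff ℝ ∞ fun p => A p i j) (k c : Fin n) :
    ContDiff ℝ ∞ fun p => (A p).adjugate k c := by
  simp only [Matrix.adjugate_apply]
  refine contDiff_det fun i j => ?_
  simp only [Matrix.updateRow_apply]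
  by_cases hi : i = c
  · simp only [hi, if_true]
    exact contDiff_const
  · simp only [hi, if_false]
    exact h i j

lemma det_eq_jac (Φ : E4 → E4) (x : E4) : (fderiv ℝ Φ x).det = (jac Φ x).det := by
  show LinearMap.det ((fderiv ℝ Φ x : E4 →L[ℝ] E4) : E4 →ₗ[ℝ] E4) = _
  rw [← LinearMap.det_toMatrix (EuclideanSpace.basisFun (Fin 4) ℝ).toBasis]
  congr 1

namespace Flow

variable (F : Flow)

/-- Jacobian of the flow in the parameter -/
noncomputable def jacU (u x : E4) : Matrix (Fin 4) (Fin 4) ℝ := jac (fun u => F.fwd u x) u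

lemma contDiff_jacU (c k : Fin 4) : ContDiff ℝ ∞ fun q : E4 × E4 => F.jacU q.1 q.2 c k :=
  (contDiff_euclidean.1 (F.contDiff_duFwd.clm_apply contDiff_const)) c

lemma exists_radius {K : Set E4} (hK : IsCompact K) (hdet : ∀ x ∈ K, (F.jacU 0 x).det ≠ 0) :
    ∃ r, 0 < r ∧ ∀ u ∈ closedBall (0 : E4) r, ∀ x ∈ K, (F.jacU u x).det ≠ 0 := by
  have ho : IsOpen {q : E4 × E4 | (F.jacU q.1 q.2).det ≠ 0} :=
    isOpen_ne.preimage (contDiff_det F.contDiff_jacU).continuous
  obtain ⟨δ, hδ, hsub⟩ := ((isCompact_singleton (x := (0 : E4))).prod hK).exists_cthickening_subset_open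
    ho (fun q hq => by
      show (F.jacU q.1 q.2).det ≠ 0
      rw [show q.1 = 0 from hq.1]
      exact hdet _ hq.2)
  refine ⟨δ, hδ, fun u hu x hx => @hsub (u, x)
    (Metric.mem_cthickening_of_dist_le (u, x) ((0 : E4), x) δ _ (mk_mem_prod rfl hx) ?_)⟩
  simpa [Prod.dist_eq, hδ.le] using hu

end Flow

/-- amplitude after one integration by parts -/
noncomputable def aGain (F : Flow) (θ : E4 → ℝ) (a : E4 → E4 → ℝ) (c k : Fin 4) :
    E4 → E4 → ℝ :=
  fun u x => θ u * a u x * (F.jacU u x).adjugate k c / (F.jacU u x).det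

/-- derivative of an amplitude in the parameter -/
noncomputable def aPdU (a : E4 → E4 → ℝ) (k : Fin 4) : E4 → E4 → ℝ :=
  fun u x => pd (fun u => a u x) k u

lemma isAmp_aPdU {a : E4 → E4 → ℝ} (ha : IsAmp a) (k : Fin 4) : IsAmp (aPdU a k) := by
  refine ⟨?_, ?_⟩
  · have h : ContDiff ℝ ∞ fun q : E4 × E4 => fderiv ℝ (fun u => a u q.2) q.1 :=
      ContDiff.fderiv (m := ∞) (f := fun q : E4 × E4 => fun u => a u q.2)
        (ha.smooth.comp (contDiff_snd.prodMk (contDiff_snd.comp contDiff_fst))) contDiff_fst le_rfl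
    exact h.clm_apply contDiff_const
  · obtain ⟨K, c, hK, h⟩ := ha.compact
    exact ⟨K, 0, hK, fun u x hx => by
      simp [aPdU, pd, show (fun u => a u x) = fun _ => c from funext fun u => h u x hx]⟩

lemma aPdU_eq_zero {a : E4 → E4 → ℝ} {K : Set E4} (h : ∀ u x, x ∉ K → a u x = 0) (k : Fin 4)
    (u : E4) {x : E4} (hx : x ∉ K) : aPdU a k u x = 0 := by
  simp [aPdU, pd, show (fun u => a u x) = fun _ => (0 : ℝ) from funext fun u => h u x hx]

/-- partial derivative of a weight -/
lemma IsWeight.pd {ρ : E4 → ℝ} (hρ : IsWeight ρ) (k : Fin 4) : IsWeight (Full.pd ρ k) :=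
  ⟨contDiff_pd hρ.smooth k, hasCompactSupport_pd hρ.compact k⟩

section Step

variable {F : Flow} {K : Set E4} {θ : E4 → ℝ} {a : E4 → E4 → ℝ}

lemma aGain_eq_zero (ha0 : ∀ u x, x ∉ K → a u x = 0) (c k : Fin 4) (u : E4) {x : E4} (hx : x ∉ K) :
    aGain F θ a c k u x = 0 := by
  simp [aGain, ha0 u x hx]

lemma isAmp_aGain (hK : IsCompact K) (ha : IsAmp a) (ha0 : ∀ u x, x ∉ K → a u x = 0)
    (hθ : ContDiff ℝ ∞ θ) (hdet : ∀ u ∈ tsupport θ, ∀ x ∈ K, (F.jacU u x).det ≠ 0) (c k : Fin 4) :
    IsAmp (aGain F θ a c k) := by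
  refine ⟨contDiff_iff_contDiffAt.2 fun q => ?_, K, 0, hK, fun u x hx => aGain_eq_zero ha0 c k u hx⟩
  by_cases hq : (F.jacU q.1 q.2).det = 0
  · have hmem : q ∉ tsupport θ ×ˢ K := fun h => hdet q.1 h.1 q.2 h.2 hq
    refine (contDiffAt_const (c := (0 : ℝ))).congr_of_eventuallyEq (eventuallyEq_of_mem
      (((isClosed_tsupport θ).prod hK.isClosed).isOpen_compl.mem_nhds hmem) fun p hp => ?_)
    simp only [mem_compl_iff, mem_prod, not_and] at hp
    by_cases h1 : p.1 ∈ tsupport θ
    · exact aGain_eq_zero ha0 c k p.1 (hp h1)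
    · simp [aGain, image_eq_zero_of_notMem_tsupport h1]
  · exact (((hθ.comp contDiff_fst).mul ha.smooth).mul
      (contDiff_adjugate F.contDiff_jacU k c)).contDiffAt.div
      (contDiff_det F.contDiff_jacU).contDiffAt hq

lemma sum_aGain_mul (ha0 : ∀ u x, x ∉ K → a u x = 0)
    (hdet : ∀ u ∈ tsupport θ, ∀ x ∈ K, (F.jacU u x).det ≠ 0) (c c' : Fin 4) (u x : E4) :
    ∑ k, aGain F θ a c k u x * F.jacU u x c' k = if c' = c then θ u * a u x else 0 := by
  by_cases hu : u ∈ tsupport θ
  · by_cases hx : x ∈ K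
    · have h := congrFun (congrFun (Matrix.mul_adjugate (F.jacU u x)) c') c
      simp only [Matrix.mul_apply, Matrix.smul_apply, Matrix.one_apply, smul_eq_mul] at h
      calc ∑ k, aGain F θ a c k u x * F.jacU u x c' k
          = θ u * a u x / (F.jacU u x).det * ∑ k, F.jacU u x c' k * (F.jacU u x).adjugate k c := by
            rw [Finset.mul_sum]
            exact Finset.sum_congr rfl fun k _ => by simp only [aGain]; ring
        _ = if c' = c then θ u * a u x else 0 := by
            rw [h]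
            split_ifs with hc
            · rw [mul_one, div_mul_cancel₀ _ (hdet u hu x hx)]
            · simp
    · simp [aGain, ha0 u x hx]
  · simp [aGain, image_eq_zero_of_notMem_tsupport hu]

/-- one integration by parts in the parameter -/
lemma op_pd_eq {ρ : E4 → ℝ} (hρ : IsWeight ρ) (hK : IsCompact K) (ha : IsAmp a)
    (ha0 : ∀ u x, x ∉ K → a u x = 0) (hθ : ContDiff ℝ ∞ θ)
    (hdet : ∀ u ∈ tsupport θ, ∀ x ∈ K, (F.jacU u x).det ≠ 0) {e : ℝ}
    (hθ1 : ∀ v ∈ tsupport ρ, θ (e • v) = 1) {g : E4 → ℝ} (hg : ContDiff ℝ ∞ g) (c : Fin 4)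
    (x : E4) :
    e * op ρ a F e (pd g c) x =
      ∑ k, ((-1) * op (pd ρ k) (aGain F θ a c k) F e g x +
        (-e) * op ρ (aPdU (aGain F θ a c k) k) F e g x) := by
  set b : Fin 4 → E4 → E4 → ℝ := fun k => aGain F θ a c k with hb
  have hA : ∀ k, IsAmp (b k) := fun k => isAmp_aGain hK ha ha0 hθ hdet c k
  have hsl : ContDiff ℝ ∞ fun v : E4 => ((e • v, x) : E4 × E4) :=
    (contDiff_id.const_smul e).prodMk contDiff_const
  set G : E4 → ℝ := fun v => g (F.fwd (e • v) x) with hG
  set q : Fin 4 → E4 → ℝ := fun k v => ρ v * b k (e • v) x with hq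
  have hGs : ContDiff ℝ ∞ G := hg.comp (F.smooth_fwd.comp hsl)
  have hbs : ∀ k, ContDiff ℝ ∞ fun v => b k (e • v) x := fun k => (hA k).smooth.comp hsl
  have hqs : ∀ k, ContDiff ℝ ∞ (q k) := fun k => hρ.smooth.mul (hbs k)
  have hqc : ∀ k, HasCompactSupport (q k) := fun k => hρ.compact.mul_right
  have hscale : ∀ v, HasFDerivAt (fun v : E4 => e • v) (e • ContinuousLinearMap.id ℝ E4) v :=
    fun v => (hasFDerivAt_id v).const_smul e
  have hdG : ∀ v k, fderiv ℝ G v (ev4 k) =
      e * ∑ c', F.jacU (e • v) x c' k * pd g c' (F.fwd (e • v) x) := by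
    intro v k
    have hgd : Differentiable ℝ g := hg.differentiable (by simp)
    have h1 := HasFDerivAt.comp v (g := fun u => g (F.fwd u x))
      ((hgd _).comp (e • v) (F.differentiable_fwd_param x (e • v))).hasFDerivAt (hscale v)
    rw [show G = (fun u => g (F.fwd u x)) ∘ fun v : E4 => e • v from rfl, h1.fderiv]
    have h2 := pd_comp hgd (F.differentiable_fwd_param x (e • v)) k
    simp only [pd] at h2
    simp only [ContinuousLinearMap.comp_apply, _root_.smul_apply,
      ContinuousLinearMap.id_apply, map_smul, smul_eq_mul]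
    exact congrArg (e * ·) h2
  have hdq : ∀ v k, fderiv ℝ (q k) v (ev4 k) =
      pd ρ k v * b k (e • v) x + e * (ρ v * aPdU (b k) k (e • v) x) := by
    intro v k
    have hd : DifferentiableAt ℝ (fun u => b k u x) (e • v) :=
      (((hA k).smooth.comp (contDiff_id.prodMk contDiff_const)).differentiable (by simp)) _
    have h1 := HasFDerivAt.comp v hd.hasFDerivAt (hscale v)
    have h2 := pd_mul (hρ.smooth.differentiable (by simp) v) h1.differentiableAt k
    simp only [pd] at h2
    rw [show q k = fun v => ρ v * ((fun u => b k u x) ∘ fun v : E4 => e • v) v from rfl, h2,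
      h1.fderiv]
    simp only [ContinuousLinearMap.comp_apply, _root_.smul_apply,
      ContinuousLinearMap.id_apply, map_smul, smul_eq_mul, Function.comp_apply, aPdU, pd]
    ring
  have hI : ∀ k, Integrable fun v => q k v * fderiv ℝ G v (ev4 k) := fun k =>
    ((hqs k).continuous.mul (contDiff_pd hGs k).continuous).integrable_of_hasCompactSupport
      (hqc k).mul_right
  have hibp : ∀ k, (∫ v, q k v * fderiv ℝ G v (ev4 k)) =
      - ∫ v, fderiv ℝ (q k) v (ev4 k) * G v := fun k =>
    integral_mul_fderiv_eq_neg_fderiv_mul_of_integrable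
      (((contDiff_pd (hqs k) k).continuous.mul hGs.continuous).integrable_of_hasCompactSupport
        (hasCompactSupport_pd (hqc k) k).mul_right) (hI k)
      (((hqs k).continuous.mul hGs.continuous).integrable_of_hasCompactSupport (hqc k).mul_right)
      (fun v _ => (hqs k).differentiable (by simp) v) (fun v _ => hGs.differentiable (by simp) v)
  have hlhs : (∑ k, ∫ v, q k v * fderiv ℝ G v (ev4 k)) = e * op ρ a F e (pd g c) x := by
    rw [← integral_finsetSum _ fun k _ => hI k, op, ← integral_const_mul]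
    refine integral_congr_ae (Eventually.of_forall fun v => ?_)
    simp only [hdG, hq, Finset.mul_sum]
    rw [Finset.sum_comm]
    have : ∀ c', ∑ k, ρ v * b k (e • v) x * (e * (F.jacU (e • v) x c' k * pd g c' (F.fwd (e • v) x))) =
        ρ v * e * pd g c' (F.fwd (e • v) x) * if c' = c then θ (e • v) * a (e • v) x else 0 := by
      intro c'
      rw [← sum_aGain_mul ha0 hdet c c', Finset.mul_sum]
      exact Finset.sum_congr rfl fun k _ => by simp only [hb]; ring
    simp only [this, mul_ite, mul_zero, Finset.sum_ite_eq', Finset.mem_univ, if_true]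
    by_cases hv : v ∈ tsupport ρ
    · rw [hθ1 v hv]
      ring
    · simp [image_eq_zero_of_notMem_tsupport hv]
  rw [← hlhs]
  refine Finset.sum_congr rfl fun k _ => ?_
  rw [hibp k, op, op, ← integral_const_mul, ← integral_const_mul,
    ← integral_add ((integrable_op (hρ.pd k) (hA k).smooth hg e x).const_mul _)
      ((integrable_op hρ (isAmp_aPdU (hA k) k).smooth hg e x).const_mul _), ← integral_neg]
  refine integral_congr_ae (Eventually.of_forall fun v => ?_)
  simp only [hdq, hG]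
  ring

end Step

/-! ### The square-integral gain -/

/-- all derivatives of the argument can be traded for powers of the scale -/
lemma exists_sq2_op_pdW_gain (F : Flow) {K : Set E4} (hK : IsCompact K) {r R : ℝ} (hr : 0 < r)
    (hdet : ∀ u ∈ closedBall (0 : E4) r, ∀ x ∈ K, (F.jacU u x).det ≠ 0) (z : List (Fin 4)) :
    ∀ {ρ : E4 → ℝ} {a : E4 → E4 → ℝ}, IsWeight ρ → tsupport ρ ⊆ closedBall (0 : E4) R →
      IsAmp a → (∀ u x, x ∉ K → a u x = 0) →
      ∃ C, 0 ≤ C ∧ ∀ e ∈ Ioc (0 : ℝ) 1, e * R ≤ r / 2 → ∀ f : E4 → ℝ, ContDiff ℝ ∞ f →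
        HasCompactSupport f → e ^ (2 * z.length) * sq2 (op ρ a F e (pdW z f)) ≤ C * sq2 f := by
  induction z with
  | nil =>
    intro ρ a hρ _ ha _
    obtain ⟨C, hC0, hC⟩ := exists_sq2_pdW_op_le hρ F ha []
    refine ⟨C, hC0, fun e he _ f hf hs => ?_⟩
    have hw : sob 0 f = sq2 f := by
      have : words 0 = {[]} := by
        ext w
        simp [words]
      rw [sob, this, Finset.sum_singleton]
      rfl
    simpa [pdW, hw] using hC e (Ioc_subset_Icc_self he) f hf hs
  | cons c z ih =>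
    intro ρ a hρ hR ha ha0
    let θ : ContDiffBump (0 : E4) := ⟨r / 2, r, half_pos hr, half_lt_self hr⟩
    have hdθ : ∀ u ∈ tsupport θ, ∀ x ∈ K, (F.jacU u x).det ≠ 0 := fun u hu => hdet u (by
      rwa [θ.tsupport_eq] at hu)
    have hA : ∀ k, IsAmp (aGain F θ a c k) := fun k => isAmp_aGain hK ha ha0 θ.contDiff hdθ c k
    choose C₁ h₁0 h₁ using fun k => ih (hρ.pd k)
      ((tsupport_fderiv_apply_subset ℝ (ev4 k)).trans hR) (hA k) fun u x hx => aGain_eq_zero ha0 c k u hx
    choose C₂ h₂0 h₂ using fun k => ih hρ hR (isAmp_aPdU (hA k) k) fun u x hx =>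
      aPdU_eq_zero (fun u x hx => aGain_eq_zero ha0 c k u hx) k u hx
    refine ⟨4 * ∑ k, (2 * C₁ k + 2 * C₂ k), by
      exact mul_nonneg (by norm_num) (Finset.sum_nonneg fun k _ => by linarith [h₁0 k, h₂0 k]),
      fun e he heR f hf hs => ?_⟩
    have he' : e ∈ Icc (0 : ℝ) 1 := Ioc_subset_Icc_self he
    have hθ1 : ∀ v ∈ tsupport ρ, θ (e • v) = 1 := fun v hv => θ.one_of_mem_closedBall <|
      mem_closedBall_zero_iff.2 <| by
        rw [norm_smul, Real.norm_eq_abs, abs_of_pos he.1]
        exact (mul_le_mul_of_nonneg_left (mem_closedBall_zero_iff.1 (hR hv)) he.1.le).trans heR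
    set g := pdW z f with hgdef
    have hg : ContDiff ℝ ∞ g := contDiff_pdW hf z
    have hgs : HasCompactSupport g := hasCompactSupport_pdW hs z
    set P : Fin 4 → E4 → ℝ := fun k => op (pd ρ k) (aGain F θ a c k) F e g with hP
    set Q : Fin 4 → E4 → ℝ := fun k => op ρ (aPdU (aGain F θ a c k) k) F e g with hQ
    have hPc : ∀ k, Continuous fun x => (-1) * P k x := fun k =>
      continuous_const.mul (contDiff_op (hρ.pd k) (hA k).smooth hg e).continuous
    have hQc : ∀ k, Continuous fun x => (-e) * Q k x := fun k =>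
      continuous_const.mul (contDiff_op hρ (isAmp_aPdU (hA k) k).smooth hg e).continuous
    have hPs : ∀ k, HasCompactSupport fun x => (-1) * P k x := fun k =>
      (hasCompactSupport_op (hρ.pd k) _ F he' hgs).mul_left
    have hQs : ∀ k, HasCompactSupport fun x => (-e) * Q k x := fun k =>
      (hasCompactSupport_op hρ _ F he' hgs).mul_left
    have hkey : sq2 (fun x => e * op ρ a F e (pdW (c :: z) f) x) ≤
        4 * ∑ k, (2 * sq2 (P k) + 2 * sq2 (Q k)) := by
      rw [show (fun x => e * op ρ a F e (pdW (c :: z) f) x) =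
          fun x => ∑ k, ((-1) * P k x + (-e) * Q k x) from
        funext fun x => op_pd_eq hρ hK ha ha0 θ.contDiff hdθ hθ1 hg c x]
      refine (sq2_sum_le Finset.univ (fun k _ => (hPc k).add (hQc k))
        (fun k _ => (hPs k).add (hQs k))).trans ?_
      simp only [Finset.card_univ, Fintype.card_fin, Nat.cast_ofNat]
      refine mul_le_mul_of_nonneg_left (Finset.sum_le_sum fun k _ =>
        (sq2_add_le (hPc k) (hPs k) (hQc k) (hQs k)).trans ?_) (by norm_num)
      rw [sq2_smul, sq2_smul, neg_sq, neg_sq, one_pow, one_mul]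
      gcongr
      exact mul_le_of_le_one_left (sq2_nonneg _) (pow_le_one₀ he.1.le he.2)
    rw [sq2_smul] at hkey
    calc e ^ (2 * (c :: z).length) * sq2 (op ρ a F e (pdW (c :: z) f))
        = e ^ (2 * z.length) * (e ^ 2 * sq2 (op ρ a F e (pdW (c :: z) f))) := by
          rw [List.length_cons]; ring
      _ ≤ e ^ (2 * z.length) * (4 * ∑ k, (2 * sq2 (P k) + 2 * sq2 (Q k))) :=
          mul_le_mul_of_nonneg_left hkey (pow_nonneg he.1.le _)
      _ = 4 * ∑ k, (2 * (e ^ (2 * z.length) * sq2 (P k)) + 2 * (e ^ (2 * z.length) * sq2 (Q k))) := by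
          simp only [Finset.mul_sum]
          exact Finset.sum_congr rfl fun k _ => by ring
      _ ≤ 4 * ∑ k, (2 * (C₁ k * sq2 f) + 2 * (C₂ k * sq2 f)) := by
          refine mul_le_mul_of_nonneg_left (Finset.sum_le_sum fun k _ => ?_) (by norm_num)
          linarith [h₁ k e he heR f hf hs, h₂ k e he heR f hf hs]
      _ = 4 * (∑ k, (2 * C₁ k + 2 * C₂ k)) * sq2 f := by
          simp only [Finset.mul_sum, Finset.sum_mul]
          exact Finset.sum_congr rfl fun k _ => by ring

/-- Gain in every order, below one scale. -/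
theorem exists_gain {ρ : E4 → ℝ} {a : E4 → E4 → ℝ} (hρ : IsWeight ρ) (F : Flow) (ha : IsAmp a)
    (hsub : Submersive F a) :
    ∃ e₀, 0 < e₀ ∧ e₀ ≤ 1 ∧ ∀ w : List (Fin 4), ∃ C, 0 ≤ C ∧ ∀ e ∈ Ioc (0 : ℝ) e₀,
      ∀ f : E4 → ℝ, ContDiff ℝ ∞ f → HasCompactSupport f →
        e ^ (2 * w.length) * sq2 (pdW w (op ρ a F e f)) ≤ C * sq2 f := by
  obtain ⟨K, hK, ha0, hdet0⟩ := hsub
  obtain ⟨r, hr, hdet⟩ := F.exists_radius hK hdet0
  obtain ⟨R, hR⟩ := hρ.compact.isCompact.isBounded.subset_closedBall (0 : E4)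
  set e₀ := min 1 (r / 2 / (|R| + 1)) with he₀
  refine ⟨e₀, lt_min one_pos (by positivity), min_le_left _ _, fun w => ?_⟩
  obtain ⟨ι, _, b, z, hb, hz, hi, hrep⟩ := exists_rep hρ F w ha
  choose C hC0 hC using fun k => exists_sq2_op_pdW_gain F hK hr hdet (z k) hρ hR (hb k)
    ((hi k).1 K hK.isClosed ha0)
  refine ⟨Fintype.card ι * ∑ k, C k, mul_nonneg (Nat.cast_nonneg _)
    (Finset.sum_nonneg fun k _ => hC0 k), fun e he f hf hs => ?_⟩
  have he1 : e ∈ Ioc (0 : ℝ) 1 := ⟨he.1, he.2.trans (min_le_left _ _)⟩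
  have heR : e * R ≤ r / 2 := by
    calc e * R ≤ e * (|R| + 1) :=
          mul_le_mul_of_nonneg_left (by linarith [le_abs_self R]) he.1.le
      _ ≤ r / 2 / (|R| + 1) * (|R| + 1) :=
          mul_le_mul_of_nonneg_right (he.2.trans (min_le_right _ _)) (by positivity)
      _ = r / 2 := div_mul_cancel₀ _ (by positivity)
  rw [hrep e f hf]
  refine (mul_le_mul_of_nonneg_left (sq2_sum_le Finset.univ
    (fun k _ => (contDiff_op hρ (hb k).smooth (contDiff_pdW hf _) e).continuous)
    (fun k _ => hasCompactSupport_op hρ (b k) F (Ioc_subset_Icc_self he1)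
      (hasCompactSupport_pdW hs _))) (pow_nonneg he.1.le _)).trans ?_
  rw [Finset.card_univ, mul_left_comm, Finset.mul_sum, mul_assoc, Finset.sum_mul]
  refine mul_le_mul_of_nonneg_left (Finset.sum_le_sum fun k _ => ?_) (Nat.cast_nonneg _)
  exact (mul_le_mul_of_nonneg_right (pow_le_pow_of_le_one he.1.le he1.2 (by have := hz k; omega))
    (sq2_nonneg _)).trans (hC k e he1 heR f hf hs)

end Vale.Agent.P204.Full.Op
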