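import Vale.Agent.P204.Full.Op.Smooth

/-!
P204, module F6: every derivative of an averaged operator is a finite sum of averaged operators
applied to derivatives of the argument (helper55).
-/

namespace Vale.Agent.P204.Full.Op

open MeasureTheory Set Filter
open scoped ContDiff Topology

/-! ### Linearity of iterated partial derivatives -/

lemma pd_add {f g : E4 → ℝ} {x : E4} (hf : DifferentiableAt ℝ f x) (hg : DifferentiableAt ℝ g x)
    (i : Fin 4) : pd (fun y => f y + g y) i x = pd f i x + pd g i x := by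
  simp only [pd]
  rw [(hf.hasFDerivAt.fun_add hg.hasFDerivAt).fderiv]
  rfl

lemma pdW_add {f g : E4 → ℝ} (hf : ContDiff ℝ ∞ f) (hg : ContDiff ℝ ∞ g) :
    ∀ w, pdW w (fun y => f y + g y) = fun y => pdW w f y + pdW w g y
  | [] => rfl
  | a :: w => by
    funext x
    show pd (pdW w fun y => f y + g y) a x = _
    rw [pdW_add hf hg w]
    exact pd_add ((contDiff_pdW hf w).differentiable (by simp) x)
      ((contDiff_pdW hg w).differentiable (by simp) x) a

lemma pdW_sum {ι : Type} [Fintype ι] {f : ι → E4 → ℝ} (hf : ∀ k, ContDiff ℝ ∞ (f k)) :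
    ∀ w, pdW w (fun y => ∑ k, f k y) = fun y => ∑ k, pdW w (f k) y
  | [] => rfl
  | a :: w => by
    funext x
    show pd (pdW w fun y => ∑ k, f k y) a x = _
    rw [pdW_sum hf w]
    simp only [pd]
    rw [(HasFDerivAt.fun_sum fun k (_ : k ∈ Finset.univ) =>
      (((contDiff_pdW (hf k) w).differentiable (by simp)) x).hasFDerivAt).fderiv,
      sum_apply]
    rfl

lemma pdW_const_mul {f : E4 → ℝ} (hf : ContDiff ℝ ∞ f) (c : ℝ) :
    ∀ w, pdW w (fun y => c * f y) = fun y => c * pdW w f y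
  | [] => rfl
  | a :: w => by
    funext x
    show pd (pdW w fun y => c * f y) a x = _
    rw [pdW_const_mul hf c w]
    simp only [pd]
    rw [(((contDiff_pdW hf w).differentiable (by simp) x).hasFDerivAt.const_mul c).fderiv]
    rfl

/-- `b` inherits from `a` the places where it vanishes -/
def Inherits (b a : E4 → E4 → ℝ) : Prop :=
  (∀ K : Set E4, IsClosed K → (∀ u x, x ∉ K → a u x = 0) → ∀ u x, x ∉ K → b u x = 0) ∧
    ((∀ x, a 0 x = 0) → ∀ x, b 0 x = 0)

lemma inherits_aPd (a : E4 → E4 → ℝ) (i : Fin 4) : Inherits (aPd a i) a := by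
  refine ⟨fun K hK h u x hx => ?_, fun h x => ?_⟩
  · have he : a u =ᶠ[𝓝 x] fun _ => 0 :=
      Filter.eventuallyEq_of_mem (hK.isOpen_compl.mem_nhds hx) fun y hy => h u y hy
    simp [aPd, pd, he.fderiv_eq]
  · simp [aPd, pd, show a 0 = fun _ => (0 : ℝ) from funext h]

lemma inherits_aJac (F : Flow) (a : E4 → E4 → ℝ) (c i : Fin 4) : Inherits (aJac F a c i) a :=
  ⟨fun K _ h u x hx => by simp [aJac, h u x hx], fun h x => by simp [aJac, h x]⟩

lemma Inherits.trans {c b a : E4 → E4 → ℝ} (h : Inherits c b) (h' : Inherits b a) : Inherits c a :=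
  ⟨fun K hK ha => h.1 K hK (h'.1 K hK ha), fun ha => h.2 (h'.2 ha)⟩

/-- Every derivative of `op ρ a F e f` is a finite sum of operators with amplitudes independent
of `e` and `f`, applied to derivatives of `f` of no higher order. -/
theorem exists_rep {ρ : E4 → ℝ} (hρ : IsWeight ρ) (F : Flow) (w : List (Fin 4)) :
    ∀ {a : E4 → E4 → ℝ}, IsAmp a →
      ∃ (ι : Type) (_ : Fintype ι) (b : ι → E4 → E4 → ℝ) (z : ι → List (Fin 4)),
        (∀ k, IsAmp (b k)) ∧ (∀ k, (z k).length ≤ w.length) ∧ (∀ k, Inherits (b k) a) ∧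
        ∀ (e : ℝ) (f : E4 → ℝ), ContDiff ℝ ∞ f →
          pdW w (op ρ a F e f) = fun x => ∑ k, op ρ (b k) F e (pdW (z k) f) x := by
  induction w using List.reverseRecOn with
  | nil =>
    intro a ha
    refine ⟨Unit, inferInstance, fun _ => a, fun _ => [], fun _ => ha, fun _ => le_rfl,
      fun _ => ⟨fun _ _ h => h, fun h => h⟩, fun e f _ => ?_⟩
    funext x
    simp [pdW]
  | append_singleton w i ih =>
    intro a ha
    obtain ⟨ι₀, _, b₀, z₀, hb₀, hz₀, hi₀, h₀⟩ := ih (ha.pd i)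
    choose ι₁ inst b₁ z₁ hb₁ hz₁ hi₁ h₁ using fun c => ih (ha.mulJac F c i)
    refine ⟨ι₀ ⊕ Σ c, ι₁ c, inferInstance, Sum.elim b₀ fun p => b₁ p.1 p.2,
      Sum.elim z₀ fun p => z₁ p.1 p.2 ++ [p.1], ?_, ?_, ?_, fun e f hf => ?_⟩
    · rintro (k | ⟨c, k⟩)
      exacts [hb₀ k, hb₁ c k]
    · rintro (k | ⟨c, k⟩)
      · exact (hz₀ k).trans (by simp)
      · simpa using hz₁ c k
    · rintro (k | ⟨c, k⟩)
      exacts [(hi₀ k).trans (inherits_aPd a i), (hi₁ c k).trans (inherits_aJac F a c i)]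
    · have hs : ∀ c, ContDiff ℝ ∞ (op ρ (aJac F a c i) F e (pd f c)) := fun c =>
        contDiff_op hρ (ha.mulJac F c i).smooth (contDiff_pd hf c) e
      have e1 : pd (op ρ a F e f) i =
          fun x => op ρ (aPd a i) F e f x + ∑ c, op ρ (aJac F a c i) F e (pd f c) x :=
        funext fun x => pd_op hρ ha.smooth hf e i x
      rw [pdW_append]
      show pdW w (pd (op ρ a F e f) i) = _
      rw [e1, pdW_add (contDiff_op hρ (ha.pd i).smooth hf e) (ContDiff.sum fun c _ => hs c) w,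
        pdW_sum hs w]
      funext x
      simp only [h₀ e f hf, fun c => h₁ c e (pd f c) (contDiff_pd hf c), Fintype.sum_sum_type,
        Sum.elim_inl, Sum.elim_inr, Fintype.sum_sigma, pdW_append]
      rfl

lemma op_zero (ρ : E4 → ℝ) (a : E4 → E4 → ℝ) (F : Flow) (f : E4 → ℝ) (x : E4) :
    op ρ a F 0 f x = (∫ v, ρ v) * (a 0 x * f x) := by
  simp only [op, zero_smul, F.fwd_zero, integral_mul_const]

end Vale.Agent.P204.Full.Op
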