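import Vale.Agent.P204.Full.Op.Defs

/-!
P204, module F6: smoothness of averaged operators and their first derivatives (helper55).
-/

namespace Vale.Agent.P204.Full.Op

open MeasureTheory Set Filter Matrix
open scoped ContDiff Topology

/-- integral over the parameter with a continuous compactly supported weight -/
noncomputable def parInt {P G : Type} [NormedAddCommGroup G] [NormedSpace ℝ G]
    (k : E4 → ℝ) (g : E4 → P → G) (x : P) : G := ∫ v, k v • g v x

section Par

variable {P : Type} [NormedAddCommGroup P] [NormedSpace ℝ P] [FiniteDimensional ℝ P]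
variable {G : Type} [NormedAddCommGroup G] [NormedSpace ℝ G] [CompleteSpace G]
variable {k : E4 → ℝ}

set_option linter.unusedSectionVars false

omit [CompleteSpace G] [FiniteDimensional ℝ P] [NormedSpace ℝ P] in
lemma integrable_par (hk : Continuous k) (hks : HasCompactSupport k) {g : E4 → P → G}
    (hg : Continuous fun p : E4 × P => g p.1 p.2) (x : P) :
    Integrable fun v => k v • g v x :=
  (hk.smul (hg.comp (continuous_id.prodMk continuous_const))).integrable_of_hasCompactSupport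
    hks.smul_right

lemma hasFDerivAt_parInt (hk : Continuous k) (hks : HasCompactSupport k) {g : E4 → P → G}
    (hg : ContDiff ℝ 1 fun p : E4 × P => g p.1 p.2) (x : P) :
    HasFDerivAt (parInt k g) (parInt k (fun v y => fderiv ℝ (g v) y) x) x := by
  have hd : Differentiable ℝ fun p : E4 × P => g p.1 p.2 := hg.differentiable one_ne_zero
  have hslice : ∀ v y, HasFDerivAt (g v) (fderiv ℝ (g v) y) y := fun v y =>
    (((hd (v, y)).comp y ((differentiableAt_const v).prodMk differentiableAt_id)) :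
      DifferentiableAt ℝ (g v) y).hasFDerivAt
  have he : ∀ v y, fderiv ℝ (g v) y =
      (fderiv ℝ (fun p : E4 × P => g p.1 p.2) (v, y)).comp (ContinuousLinearMap.inr ℝ E4 P) :=
    fun v y => ((hd (v, y)).hasFDerivAt.comp y (hasFDerivAt_prodMk_right v y)).fderiv
  have hc : Continuous fun p : E4 × P => fderiv ℝ (g p.1) p.2 := by
    simp_rw [he]
    exact (hg.continuous_fderiv one_ne_zero).clm_comp continuous_const
  obtain ⟨C, hC⟩ := (hks.isCompact.prod (isCompact_closedBall x 1)).exists_bound_of_continuousOn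
    (f := fun p : E4 × P => fderiv ℝ (g p.1) p.2) hc.continuousOn
  refine hasFDerivAt_integral_of_dominated_of_fderiv_le (𝕜 := ℝ)
    (bound := fun v => ‖k v‖ * C) (Metric.closedBall_mem_nhds x one_pos)
    (Eventually.of_forall fun y => (integrable_par hk hks hg.continuous y).aestronglyMeasurable)
    (integrable_par hk hks hg.continuous x) (integrable_par hk hks hc x).aestronglyMeasurable
    (Eventually.of_forall fun v y hy => ?_)
    ((hk.norm.mul continuous_const).integrable_of_hasCompactSupport hks.norm.mul_right)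
    (Eventually.of_forall fun v y _ => (hslice v y).const_smul (k v))
  rw [norm_smul]
  by_cases hv : v ∈ tsupport k
  · exact mul_le_mul_of_nonneg_left (hC (v, y) ⟨hv, hy⟩) (norm_nonneg _)
  · simp [image_eq_zero_of_notMem_tsupport hv]

end Par

lemma contDiff_parInt_nat {P : Type} [NormedAddCommGroup P] [NormedSpace ℝ P]
    [FiniteDimensional ℝ P] {k : E4 → ℝ} (hk : Continuous k) (hks : HasCompactSupport k) (n : ℕ) :
    ∀ {G : Type} [NormedAddCommGroup G] [NormedSpace ℝ G] [CompleteSpace G] {g : E4 → P → G},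
      ContDiff ℝ ∞ (fun p : E4 × P => g p.1 p.2) → ContDiff ℝ n (parInt k g) := by
  induction n with
  | zero =>
    intro G _ _ _ g hg
    exact contDiff_zero.2 (continuous_iff_continuousAt.2 fun x =>
      (hasFDerivAt_parInt hk hks (hg.of_le (mod_cast le_top)) x).continuousAt)
  | succ n ih =>
    intro G _ _ _ g hg
    have h1 := fun x => hasFDerivAt_parInt hk hks (hg.of_le (mod_cast le_top)) x
    rw [show ((n + 1 : ℕ) : WithTop ℕ∞) = (n : WithTop ℕ∞) + 1 by norm_cast, contDiff_succ_iff_fderiv]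
    refine ⟨fun x => (h1 x).differentiableAt, by simp, ?_⟩
    rw [show fderiv ℝ (parInt k g) = parInt k (fun v y => fderiv ℝ (g v) y) from
      funext fun x => (h1 x).fderiv]
    refine ih ?_
    exact ContDiff.fderiv (m := ∞) (f := fun p : E4 × P => g p.1)
      (hg.comp ((contDiff_fst.comp contDiff_fst).prodMk contDiff_snd)) contDiff_snd le_rfl

lemma contDiff_parInt {P G : Type} [NormedAddCommGroup P] [NormedSpace ℝ P] [FiniteDimensional ℝ P]
    [NormedAddCommGroup G] [NormedSpace ℝ G] [CompleteSpace G] {k : E4 → ℝ} {g : E4 → P → G}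
    (hk : Continuous k) (hks : HasCompactSupport k)
    (hg : ContDiff ℝ ∞ (fun p : E4 × P => g p.1 p.2)) : ContDiff ℝ ∞ (parInt k g) :=
  contDiff_infty.2 fun n => contDiff_parInt_nat hk hks n hg

/-! ### Partial derivatives -/

lemma sum_ev4 (z : E4) : ∑ c, z c • ev4 c = z := by
  conv_rhs => rw [← (EuclideanSpace.basisFun (Fin 4) ℝ).sum_repr z]
  simp [ev4]

lemma fderiv_apply_eq_sum {G : Type} [NormedAddCommGroup G] [NormedSpace ℝ G] (f : E4 → G)
    (x z : E4) : fderiv ℝ f x z = ∑ c, z c • pd f c x := by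
  conv_lhs => rw [← sum_ev4 z, map_sum]
  simp [pd]

lemma contDiff_pd {G : Type} [NormedAddCommGroup G] [NormedSpace ℝ G] {f : E4 → G}
    (hf : ContDiff ℝ ∞ f) (c : Fin 4) : ContDiff ℝ ∞ (pd f c) :=
  (hf.fderiv_right (m := ∞) le_rfl).clm_apply contDiff_const

lemma hasCompactSupport_pd {G : Type} [NormedAddCommGroup G] [NormedSpace ℝ G] {f : E4 → G}
    (hf : HasCompactSupport f) (c : Fin 4) : HasCompactSupport (pd f c) :=
  hf.fderiv_apply ℝ (ev4 c)

lemma contDiff_pdW {G : Type} [NormedAddCommGroup G] [NormedSpace ℝ G] {f : E4 → G}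
    (hf : ContDiff ℝ ∞ f) : ∀ w, ContDiff ℝ ∞ (pdW w f)
  | [] => hf
  | a :: w => contDiff_pd (contDiff_pdW hf w) a

lemma hasCompactSupport_pdW {G : Type} [NormedAddCommGroup G] [NormedSpace ℝ G] {f : E4 → G}
    (hf : HasCompactSupport f) : ∀ w, HasCompactSupport (pdW w f)
  | [] => hf
  | a :: w => hasCompactSupport_pd (hasCompactSupport_pdW hf w) a

lemma pdW_append {G : Type} [NormedAddCommGroup G] [NormedSpace ℝ G] (f : E4 → G) :
    ∀ w z, pdW (w ++ z) f = pdW w (pdW z f)
  | [], _ => rfl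
  | a :: w, z => congrArg (fun g => pd g a) (pdW_append f w z)

lemma pd_mul {f g : E4 → ℝ} {x : E4} (hf : DifferentiableAt ℝ f x) (hg : DifferentiableAt ℝ g x)
    (i : Fin 4) : pd (fun y => f y * g y) i x = pd f i x * g x + f x * pd g i x := by
  simp only [pd]
  rw [(hf.hasFDerivAt.fun_mul hg.hasFDerivAt).fderiv]
  simp [add_comm, mul_comm]

lemma pd_comp {f : E4 → ℝ} {τ : E4 → E4} (hf : Differentiable ℝ f) {x : E4}
    (hτ : DifferentiableAt ℝ τ x) (i : Fin 4) :
    pd (fun y => f (τ y)) i x = ∑ c, jac τ x c i * pd f c (τ x) := by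
  simp only [pd, jac]
  rw [show (fun y => f (τ y)) = f ∘ τ from rfl, fderiv_comp x (hf _) hτ,
    ContinuousLinearMap.comp_apply, fderiv_apply_eq_sum]
  simp [pd]

/-! ### The operator -/

/-- partial derivative of an amplitude in the space variable -/
noncomputable def aPd (a : E4 → E4 → ℝ) (i : Fin 4) : E4 → E4 → ℝ := fun u x => pd (a u) i x

/-- amplitude times an entry of the space Jacobian of the flow -/
noncomputable def aJac (F : Flow) (a : E4 → E4 → ℝ) (c i : Fin 4) : E4 → E4 → ℝ :=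
  fun u x => a u x * jac (F.fwd u) x c i

namespace Flow

variable (F : Flow)

lemma contDiff_fwd_slice (u : E4) : ContDiff ℝ ∞ (F.fwd u) :=
  F.smooth_fwd.comp (contDiff_const.prodMk contDiff_id)

lemma contDiff_bwd_slice (u : E4) : ContDiff ℝ ∞ (F.bwd u) :=
  F.smooth_bwd.comp (contDiff_const.prodMk contDiff_id)

lemma contDiff_jac (c i : Fin 4) :
    ContDiff ℝ ∞ fun p : E4 × E4 => jac (F.fwd p.1) p.2 c i := by
  have h : ContDiff ℝ ∞ fun p : E4 × E4 => fderiv ℝ (F.fwd p.1) p.2 :=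
    ContDiff.fderiv (m := ∞) (f := fun p : E4 × E4 => F.fwd p.1)
      (F.smooth_fwd.comp ((contDiff_fst.comp contDiff_fst).prodMk contDiff_snd)) contDiff_snd le_rfl
  exact (contDiff_euclidean.1 (h.clm_apply contDiff_const)) c

lemma jac_fwd_out {u x : E4} (hx : x ∉ F.supp) : jac (F.fwd u) x = 1 := by
  have h : F.fwd u =ᶠ[𝓝 x] id :=
    Filter.eventuallyEq_of_mem (F.compact_supp.isClosed.isOpen_compl.mem_nhds hx) fun y hy =>
      F.fwd_out u y hy
  ext c a
  simp only [jac, h.fderiv_eq, fderiv_id, ContinuousLinearMap.id_apply, ev4, Matrix.one_apply]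
  simp

lemma jac_fwd_zero (x : E4) : jac (F.fwd 0) x = 1 := by
  ext c a
  have h : F.fwd 0 = id := funext F.fwd_zero
  simp only [jac, h, fderiv_id, ContinuousLinearMap.id_apply, ev4, Matrix.one_apply]
  simp

end Flow

lemma contDiff_slice {a : E4 → E4 → ℝ} (ha : ContDiff ℝ ∞ fun p : E4 × E4 => a p.1 p.2) (u : E4) :
    ContDiff ℝ ∞ (a u) :=
  ha.comp (contDiff_const.prodMk contDiff_id)

lemma contDiff_aPd {a : E4 → E4 → ℝ} (ha : ContDiff ℝ ∞ fun p : E4 × E4 => a p.1 p.2) (i : Fin 4) :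
    ContDiff ℝ ∞ fun p : E4 × E4 => aPd a i p.1 p.2 := by
  have h : ContDiff ℝ ∞ fun p : E4 × E4 => fderiv ℝ (a p.1) p.2 :=
    ContDiff.fderiv (m := ∞) (f := fun p : E4 × E4 => a p.1)
      (ha.comp ((contDiff_fst.comp contDiff_fst).prodMk contDiff_snd)) contDiff_snd le_rfl
  exact h.clm_apply contDiff_const

lemma IsAmp.pd {a : E4 → E4 → ℝ} (ha : IsAmp a) (i : Fin 4) : IsAmp (aPd a i) := by
  refine ⟨contDiff_aPd ha.smooth i, ?_⟩
  obtain ⟨K, c, hK, h⟩ := ha.compact
  refine ⟨K, 0, hK, fun u x hx => ?_⟩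
  have he : a u =ᶠ[𝓝 x] fun _ => c :=
    Filter.eventuallyEq_of_mem (hK.isClosed.isOpen_compl.mem_nhds hx) fun y hy => h u y hy
  simp [aPd, Full.pd, he.fderiv_eq]

lemma IsAmp.mulJac {a : E4 → E4 → ℝ} (ha : IsAmp a) (F : Flow) (c i : Fin 4) :
    IsAmp (aJac F a c i) := by
  refine ⟨ha.smooth.mul (F.contDiff_jac c i), ?_⟩
  obtain ⟨K, c₀, hK, h⟩ := ha.compact
  refine ⟨K ∪ F.supp, c₀ * (1 : Matrix (Fin 4) (Fin 4) ℝ) c i, hK.union F.compact_supp, ?_⟩
  intro u x hx
  rw [Set.mem_union, not_or] at hx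
  simp [aJac, h u x hx.1, F.jac_fwd_out hx.2]

lemma IsAmp.bound {a : E4 → E4 → ℝ} (ha : IsAmp a) {S : Set E4} (hS : IsCompact S) :
    ∃ A, 0 ≤ A ∧ ∀ u ∈ S, ∀ x, |a u x| ≤ A := by
  obtain ⟨K, c, hK, h⟩ := ha.compact
  obtain ⟨A, hA⟩ := (hS.prod hK).exists_bound_of_continuousOn
    (f := fun p : E4 × E4 => a p.1 p.2) ha.smooth.continuous.continuousOn
  refine ⟨max (max A |c|) 0, le_max_right _ _, fun u hu x => ?_⟩
  by_cases hx : x ∈ K
  · exact (hA (u, x) ⟨hu, hx⟩).trans ((le_max_left _ _).trans (le_max_left _ _))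
  · rw [h u x hx]
    exact (le_max_right _ _).trans (le_max_left _ _)

section Op

variable {ρ : E4 → ℝ} {a : E4 → E4 → ℝ} {F : Flow} {f : E4 → ℝ}

lemma contDiff_opKernel (ha : ContDiff ℝ ∞ fun p : E4 × E4 => a p.1 p.2) (hf : ContDiff ℝ ∞ f)
    (e : ℝ) : ContDiff ℝ ∞ fun p : E4 × E4 => a (e • p.1) p.2 * f (F.fwd (e • p.1) p.2) := by
  have h0 : ContDiff ℝ ∞ fun p : E4 × E4 => (e • p.1, p.2) :=
    (contDiff_fst.const_smul e).prodMk contDiff_snd
  exact (ha.comp h0).mul (hf.comp (F.smooth_fwd.comp h0))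

lemma op_eq_parInt (e : ℝ) :
    op ρ a F e f = parInt ρ fun v x => a (e • v) x * f (F.fwd (e • v) x) := rfl

lemma integrable_op (hρ : IsWeight ρ) (ha : ContDiff ℝ ∞ fun p : E4 × E4 => a p.1 p.2)
    (hf : ContDiff ℝ ∞ f) (e : ℝ) (x : E4) :
    Integrable fun v => ρ v * (a (e • v) x * f (F.fwd (e • v) x)) :=
  integrable_par (g := fun v y => a (e • v) y * f (F.fwd (e • v) y)) hρ.smooth.continuous
    hρ.compact (contDiff_opKernel ha hf e).continuous x

lemma contDiff_op (hρ : IsWeight ρ) (ha : ContDiff ℝ ∞ fun p : E4 × E4 => a p.1 p.2)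
    (hf : ContDiff ℝ ∞ f) (e : ℝ) : ContDiff ℝ ∞ (op ρ a F e f) :=
  contDiff_parInt hρ.smooth.continuous hρ.compact (contDiff_opKernel ha hf e)

lemma pd_op (hρ : IsWeight ρ) (ha : ContDiff ℝ ∞ fun p : E4 × E4 => a p.1 p.2)
    (hf : ContDiff ℝ ∞ f) (e : ℝ) (i : Fin 4) (x : E4) :
    pd (op ρ a F e f) i x =
      op ρ (aPd a i) F e f x + ∑ c, op ρ (aJac F a c i) F e (pd f c) x := by
  set g : E4 → E4 → ℝ := fun v y => a (e • v) y * f (F.fwd (e • v) y) with hg
  have hgs : ContDiff ℝ ∞ fun p : E4 × E4 => g p.1 p.2 := contDiff_opKernel ha hf e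
  have h1 := hasFDerivAt_parInt (g := g) hρ.smooth.continuous hρ.compact (hgs.of_le (mod_cast le_top)) x
  have h2 : ∀ v, fderiv ℝ (g v) x (ev4 i) =
      aPd a i (e • v) x * f (F.fwd (e • v) x) +
        ∑ c, aJac F a c i (e • v) x * pd f c (F.fwd (e • v) x) := by
    intro v
    have hA : DifferentiableAt ℝ (a (e • v)) x := (contDiff_slice ha _).differentiable (by simp) x
    have hT : DifferentiableAt ℝ (F.fwd (e • v)) x :=
      (F.contDiff_fwd_slice _).differentiable (by simp) x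
    have hF : Differentiable ℝ f := hf.differentiable (by simp)
    refine ((pd_mul hA ((hF _).comp x hT) i)).trans ?_
    rw [show (f ∘ F.fwd (e • v)) = fun y => f (F.fwd (e • v) y) from rfl, pd_comp hF hT i,
      Finset.mul_sum]
    simp only [aPd, aJac, mul_assoc]
  have h3' : ContDiff ℝ ∞ fun p : E4 × E4 => fderiv ℝ (g p.1) p.2 :=
    ContDiff.fderiv (m := ∞) (f := fun p : E4 × E4 => g p.1)
      (hgs.comp ((contDiff_fst.comp contDiff_fst).prodMk contDiff_snd)) contDiff_snd le_rfl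
  have h3 := h3'.continuous
  have h4 : ∀ c, Integrable fun v =>
      ρ v * (aJac F a c i (e • v) x * pd f c (F.fwd (e • v) x)) := fun c =>
    integrable_op hρ (ha.mul (F.contDiff_jac c i)) (contDiff_pd hf c) e x
  rw [show op ρ a F e f = parInt ρ g from rfl]
  simp only [pd]
  rw [h1.fderiv]
  simp only [parInt]
  rw [ContinuousLinearMap.integral_apply (integrable_par hρ.smooth.continuous hρ.compact h3 x)]
  simp only [_root_.smul_apply, smul_eq_mul, h2, mul_add, Finset.mul_sum, op]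
  rw [integral_add (integrable_op hρ (contDiff_aPd ha i) hf e x)
    (integrable_finsetSum _ fun c _ => h4 c), integral_finsetSum _ fun c _ => h4 c]

end Op

end Vale.Agent.P204.Full.Op
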