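import Vale.Agent.P204.Full.Op.Gain

/-!
P204, module F6: the estimates of averaged operators collected over all derivatives up to a given
order (helper55).
-/

namespace Vale.Agent.P204.Full.Op

open MeasureTheory Set Filter Metric
open scoped ContDiff Topology

variable {ρ : E4 → ℝ} {a : E4 → E4 → ℝ}

lemma mem_words_length {w : List (Fin 4)} {j : ℕ} (h : w ∈ words j) : w.length ≤ j := by
  simp only [words, Finset.mem_biUnion, Finset.mem_range, Finset.mem_image] at h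
  obtain ⟨i, hi, v, -, rfl⟩ := h
  simp only [List.length_ofFn]
  omega

lemma sob_mono {i j : ℕ} (h : i ≤ j) (f : E4 → ℝ) : sob i f ≤ sob j f :=
  Finset.sum_le_sum_of_subset_of_nonneg (fun _ hw => sum_words ((mem_words_length hw).trans h))
    fun _ _ _ => sq2_nonneg _

lemma sob_zero_eq (f : E4 → ℝ) : sob 0 f = sq2 f := by
  have h : words 0 = {[]} := by
    ext w
    simp [words]
  rw [sob, h, Finset.sum_singleton]
  rfl

theorem exists_sob_op_le (hρ : IsWeight ρ) (F : Flow) (ha : IsAmp a) (j : ℕ) :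
    ∃ C, 0 ≤ C ∧ ∀ e ∈ Icc (0 : ℝ) 1, ∀ f : E4 → ℝ, ContDiff ℝ ∞ f → HasCompactSupport f →
      sob j (op ρ a F e f) ≤ C * sob j f := by
  choose C hC0 hC using exists_sq2_pdW_op_le hρ F ha
  refine ⟨∑ w ∈ words j, C w, Finset.sum_nonneg fun w _ => hC0 w, fun e he f hf hs => ?_⟩
  rw [Finset.sum_mul]
  exact Finset.sum_le_sum fun w hw => (hC w e he f hf hs).trans
    (mul_le_mul_of_nonneg_left (sob_mono (mem_words_length hw) f) (hC0 w))

theorem exists_sob_op_vanish (hρ : IsWeight ρ) (F : Flow) (ha : IsAmp a) (h0 : ∀ x, a 0 x = 0)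
    (j : ℕ) :
    ∃ C, 0 ≤ C ∧ ∀ e ∈ Icc (0 : ℝ) 1, ∀ f : E4 → ℝ, ContDiff ℝ ∞ f → HasCompactSupport f →
      sob j (op ρ a F e f) ≤ C * e ^ 2 * sob j f := by
  choose C hC0 hC using exists_sq2_pdW_op_vanish hρ F ha h0
  refine ⟨∑ w ∈ words j, C w, Finset.sum_nonneg fun w _ => hC0 w, fun e he f hf hs => ?_⟩
  rw [Finset.sum_mul, Finset.sum_mul]
  exact Finset.sum_le_sum fun w hw => (hC w e he f hf hs).trans
    (mul_le_mul_of_nonneg_left (sob_mono (mem_words_length hw) f)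
      (mul_nonneg (hC0 w) (sq_nonneg e)))

theorem exists_sob_diff_le (hρ : IsWeight ρ) (F : Flow) (ha : IsAmp a) (j : ℕ) :
    ∃ C, 0 ≤ C ∧ ∀ e ∈ Icc (0 : ℝ) 1, ∀ f : E4 → ℝ, ContDiff ℝ ∞ f → HasCompactSupport f →
      sob j (fun x => op ρ a F e f x - (∫ v, ρ v) * (a 0 x * f x)) ≤
        C * e ^ 2 * sob (j + 1) f := by
  choose C hC0 hC using exists_sq2_pdW_diff_le hρ F ha
  refine ⟨∑ w ∈ words j, C w, Finset.sum_nonneg fun w _ => hC0 w, fun e he f hf hs => ?_⟩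
  rw [Finset.sum_mul, Finset.sum_mul]
  exact Finset.sum_le_sum fun w hw => (hC w e he f hf hs).trans
    (mul_le_mul_of_nonneg_left (sob_mono (Nat.succ_le_succ (mem_words_length hw)) f)
      (mul_nonneg (hC0 w) (sq_nonneg e)))

theorem exists_sob_gain (hρ : IsWeight ρ) (F : Flow) (ha : IsAmp a) (hsub : Submersive F a) :
    ∃ e₀, 0 < e₀ ∧ e₀ ≤ 1 ∧ ∀ j, ∃ C, 0 ≤ C ∧ ∀ e ∈ Ioc (0 : ℝ) e₀, ∀ f : E4 → ℝ,
      ContDiff ℝ ∞ f → HasCompactSupport f →
        e ^ (2 * j) * sob j (op ρ a F e f) ≤ C * sq2 f := by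
  obtain ⟨e₀, h0, h1, h⟩ := exists_gain hρ F ha hsub
  choose C hC0 hC using h
  refine ⟨e₀, h0, h1, fun j => ⟨∑ w ∈ words j, C w, Finset.sum_nonneg fun w _ => hC0 w,
    fun e he f hf hs => ?_⟩⟩
  rw [sob, Finset.mul_sum, Finset.sum_mul]
  refine Finset.sum_le_sum fun w hw => le_trans ?_ (hC w e he f hf hs)
  exact mul_le_mul_of_nonneg_right (pow_le_pow_of_le_one he.1.le (he.2.trans h1)
    (by have := mem_words_length hw; omega)) (sq2_nonneg _)

lemma sob_add_le (j : ℕ) {f g : E4 → ℝ} (hf : ContDiff ℝ ∞ f) (hfs : HasCompactSupport f)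
    (hg : ContDiff ℝ ∞ g) (hgs : HasCompactSupport g) :
    sob j (fun x => f x + g x) ≤ 2 * sob j f + 2 * sob j g := by
  simp only [sob, Finset.mul_sum, ← Finset.sum_add_distrib]
  refine Finset.sum_le_sum fun w _ => ?_
  rw [pdW_add hf hg]
  exact sq2_add_le (contDiff_pdW hf w).continuous (hasCompactSupport_pdW hfs w)
    (contDiff_pdW hg w).continuous (hasCompactSupport_pdW hgs w)

lemma sob_sum_le {ι : Type} [Fintype ι] (j : ℕ) {f : ι → E4 → ℝ} (hf : ∀ k, ContDiff ℝ ∞ (f k))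
    (hfs : ∀ k, HasCompactSupport (f k)) :
    sob j (fun x => ∑ k, f k x) ≤ Fintype.card ι * ∑ k, sob j (f k) := by
  simp only [sob]
  rw [Finset.sum_comm, Finset.mul_sum]
  refine Finset.sum_le_sum fun w _ => ?_
  rw [pdW_sum hf]
  exact sq2_sum_le Finset.univ (fun k _ => (contDiff_pdW (hf k) w).continuous)
    (fun k _ => hasCompactSupport_pdW (hfs k) w)

end Vale.Agent.P204.Full.Op
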