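import Vale.Agent.P204.Full.Op.Gain

/-!
P204, module F6: localised sup bounds for averaged operators with submersive amplitudes:
`e ^ (|w| + 4) |∂^w (op f) (x)|` is at most a multiple of the integral of `|f|` over the ball of
radius `L e` around `x` (helper55).
-/

namespace Vale.Agent.P204.Full.Op

open MeasureTheory Set Filter Metric Matrix
open scoped ContDiff Topology

namespace Flow

variable (F : Flow)

lemma exists_tube {K : Set E4} (hK : IsCompact K) {U : Set (E4 × E4)} (hU : IsOpen U)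
    (h : ∀ x ∈ K, ((0 : E4), x) ∈ U) :
    ∃ r, 0 < r ∧ ∀ u ∈ closedBall (0 : E4) r, ∀ x ∈ K, (u, x) ∈ U := by
  obtain ⟨δ, hδ, hsub⟩ := ((isCompact_singleton (x := (0 : E4))).prod hK).exists_cthickening_subset_open
    hU (fun q hq => by
      have := h q.2 hq.2
      rwa [← show q.1 = 0 from hq.1] at this)
  refine ⟨δ, hδ, fun u hu x hx => @hsub (u, x)
    (Metric.mem_cthickening_of_dist_le (u, x) ((0 : E4), x) δ _ (mk_mem_prod rfl hx) ?_)⟩
  simpa [Prod.dist_eq, hδ.le] using hu

/-- Uniform local injectivity in the parameter, with a lower bound for the Jacobian. -/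
lemma exists_inj_radius {K : Set E4} (hK : IsCompact K) (hdet : ∀ x ∈ K, (F.jacU 0 x).det ≠ 0) :
    ∃ r c, 0 < r ∧ 0 < c ∧ (∀ u ∈ closedBall (0 : E4) r, ∀ x ∈ K, c ≤ |(F.jacU u x).det|) ∧
      ∀ x ∈ K, InjOn (fun u => F.fwd u x) (closedBall (0 : E4) r) := by
  obtain ⟨r₁, hr₁, hd⟩ := F.exists_radius hK hdet
  set D : E4 → E4 → (E4 →L[ℝ] E4) := fun u x => fderiv ℝ (fun u => F.fwd u x) u with hD
  have hDc : Continuous fun q : E4 × E4 => D q.1 q.2 := F.contDiff_duFwd.continuous
  obtain ⟨κ, hκ, hκ'⟩ := (hK.prod (isCompact_sphere (0 : E4) 1)).exists_forall_le'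
    (f := fun q : E4 × E4 => ‖D 0 q.1 q.2‖) (a := 0)
    (((hDc.comp (continuous_const.prodMk continuous_fst)).clm_apply continuous_snd).norm.continuousOn)
    (fun q hq => by
      refine norm_pos_iff.2 fun h0 => ne_zero_of_mem_unit_sphere ⟨q.2, hq.2⟩ ?_
      have hu : LinearMap.det (D 0 q.1 : E4 →ₗ[ℝ] E4) ≠ 0 := by
        have := hdet q.1 hq.1
        rwa [jacU, ← det_eq_jac] at this
      exact ((D 0 q.1 : E4 →ₗ[ℝ] E4).equivOfDetNeZero hu).injective (by simpa using h0))
  have hanti : ∀ x ∈ K, ∀ t : E4, κ * ‖t‖ ≤ ‖D 0 x t‖ := by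
    intro x hx t
    rcases eq_or_ne t 0 with rfl | ht
    · simp
    have h1 := hκ' (x, ‖t‖⁻¹ • t) ⟨hx, by simp [norm_smul, ht]⟩
    simp only [map_smul, norm_smul, norm_inv, norm_norm] at h1
    rwa [le_inv_mul_iff₀ (norm_pos_iff.2 ht), mul_comm] at h1
  obtain ⟨r₂, hr₂, hnear⟩ := exists_tube hK
    (U := {q : E4 × E4 | ‖D q.1 q.2 - D 0 q.2‖ < κ / 2})
    (isOpen_lt (hDc.sub (hDc.comp (continuous_const.prodMk continuous_snd))).norm continuous_const)
    (fun x _ => by simp [hκ])
  set r := min r₁ r₂ with hr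
  have hrpos : 0 < r := lt_min hr₁ hr₂
  obtain ⟨c, hc, hc'⟩ := ((isCompact_closedBall (0 : E4) r).prod hK).exists_forall_le'
    (f := fun q : E4 × E4 => |(F.jacU q.1 q.2).det|) (a := 0)
    (contDiff_det F.contDiff_jacU).continuous.abs.continuousOn
    (fun q hq => abs_pos.2 (hd q.1 (closedBall_subset_closedBall (min_le_left _ _) hq.1) q.2 hq.2))
  refine ⟨r, c, hrpos, hc, fun u hu x hx => hc' (u, x) ⟨hu, hx⟩, fun x hx u hu u' hu' h => ?_⟩
  have h1 := (convex_closedBall (0 : E4) r).norm_image_sub_le_of_norm_fderiv_le'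
    (φ := D 0 x) (C := κ / 2) (fun y _ => F.differentiable_fwd_param x y)
    (fun y hy => (hnear y (closedBall_subset_closedBall (min_le_right _ _) hy) x hx).le) hu hu'
  dsimp only at h
  rw [h, sub_self, zero_sub, norm_neg] at h1
  have h2 := hanti x hx (u' - u)
  by_contra hne
  have : 0 < ‖u' - u‖ := norm_pos_iff.2 (sub_ne_zero.2 (Ne.symm hne))
  nlinarith

end Flow

/-- all derivatives of the argument can be traded for powers of the scale, pointwise -/
lemma exists_abs_op_pdW_gain (F : Flow) {K : Set E4} (hK : IsCompact K) {r R : ℝ} (hr : 0 < r)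
    (hdet : ∀ u ∈ closedBall (0 : E4) r, ∀ x ∈ K, (F.jacU u x).det ≠ 0) (z : List (Fin 4)) :
    ∀ {ρ : E4 → ℝ} {a : E4 → E4 → ℝ}, IsWeight ρ → tsupport ρ ⊆ closedBall (0 : E4) R →
      IsAmp a → (∀ u x, x ∉ K → a u x = 0) →
      ∃ C, 0 ≤ C ∧ ∀ e ∈ Ioc (0 : ℝ) 1, e * R ≤ r / 2 → ∀ f : E4 → ℝ, ContDiff ℝ ∞ f → ∀ x,
        e ^ z.length * |op ρ a F e (pdW z f) x| ≤
          C * ∫ v in closedBall (0 : E4) R, |f (F.fwd (e • v) x)| := by
  induction z with
  | nil =>
    intro ρ a hρ hR ha _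
    obtain ⟨P, hP⟩ := hρ.compact.exists_bound_of_continuous hρ.smooth.continuous
    obtain ⟨A, hA0, hA⟩ := ha.bound (isCompact_params hρ)
    refine ⟨max P 0 * A, by positivity, fun e he _ f hf x => ?_⟩
    simp only [List.length_nil, pow_zero, one_mul, pdW, op]
    rw [← setIntegral_eq_integral_of_forall_compl_eq_zero (s := closedBall (0 : E4) R)
      (fun v hv => by simp [image_eq_zero_of_notMem_tsupport fun h => hv (hR h)]),
      ← integral_const_mul]
    refine abs_integral_le_integral_abs.trans (integral_mono_of_nonneg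
      (Eventually.of_forall fun v => abs_nonneg _) (((hf.continuous.comp (F.smooth_fwd.continuous.comp
          ((continuous_id.const_smul e).prodMk continuous_const))).abs.continuousOn.integrableOn_compact
            (isCompact_closedBall _ _)).const_mul _)
      (Eventually.of_forall fun v => ?_))
    dsimp only
    by_cases hv : v ∈ tsupport ρ
    · rw [abs_mul, abs_mul, ← mul_assoc]
      exact mul_le_mul_of_nonneg_right (mul_le_mul ((hP v).trans (le_max_left P 0))
        (hA _ (smul_mem_params (Ioc_subset_Icc_self he) hv) x) (abs_nonneg _) (le_max_right P 0))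
        (abs_nonneg _)
    · rw [image_eq_zero_of_notMem_tsupport hv, zero_mul, abs_zero]
      exact mul_nonneg (by positivity) (abs_nonneg _)
  | cons c z ih =>
    intro ρ a hρ hR ha ha0
    let θ : ContDiffBump (0 : E4) := ⟨r / 2, r, half_pos hr, half_lt_self hr⟩
    have hdθ : ∀ u ∈ tsupport θ, ∀ x ∈ K, (F.jacU u x).det ≠ 0 := fun u hu => hdet u (by
      rwa [θ.tsupport_eq] at hu)
    have hA : ∀ k, IsAmp (aGain F θ a c k) := fun k => isAmp_aGain hK ha ha0 θ.contDiff hdθ c k
    choose C₁ h₁0 h₁ using fun k => ih (hρ.pd k)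
      ((tsupport_fderiv_apply_subset ℝ (ev4 k)).trans hR) (hA k) fun u x hx => aGain_eq_zero ha0 c k u hx
    choose C₂ h₂0 h₂ using fun k => ih hρ hR (isAmp_aPdU (hA k) k) fun u x hx =>
      aPdU_eq_zero (fun u x hx => aGain_eq_zero ha0 c k u hx) k u hx
    refine ⟨∑ k, (C₁ k + C₂ k), Finset.sum_nonneg fun k _ => add_nonneg (h₁0 k) (h₂0 k),
      fun e he heR f hf x => ?_⟩
    have hθ1 : ∀ v ∈ tsupport ρ, θ (e • v) = 1 := fun v hv => θ.one_of_mem_closedBall <|
      mem_closedBall_zero_iff.2 <| by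
        rw [norm_smul, Real.norm_eq_abs, abs_of_pos he.1]
        exact (mul_le_mul_of_nonneg_left (mem_closedBall_zero_iff.1 (hR hv)) he.1.le).trans heR
    rw [List.length_cons, pow_succ, mul_assoc, ← abs_of_pos he.1, ← abs_mul, abs_of_pos he.1,
      show pdW (c :: z) f = pd (pdW z f) c from rfl,
      op_pd_eq hρ hK ha ha0 θ.contDiff hdθ hθ1 (contDiff_pdW hf z) c x]
    refine (mul_le_mul_of_nonneg_left (Finset.abs_sum_le_sum_abs _ _) (pow_nonneg he.1.le _)).trans ?_
    rw [Finset.mul_sum, Finset.sum_mul]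
    refine Finset.sum_le_sum fun k _ => ?_
    refine (mul_le_mul_of_nonneg_left (abs_add_le _ _) (pow_nonneg he.1.le _)).trans ?_
    rw [mul_add, add_mul, abs_mul, abs_mul, abs_neg, abs_neg, abs_one, one_mul, abs_of_pos he.1]
    refine add_le_add (h₁ k e he heR f hf x) ?_
    exact (mul_le_mul_of_nonneg_left (mul_le_of_le_one_left (abs_nonneg _) he.2)
      (pow_nonneg he.1.le _)).trans (h₂ k e he heR f hf x)

/-- Localised sup gain in every order, below one scale. -/
theorem exists_gain_sup {ρ : E4 → ℝ} {a : E4 → E4 → ℝ} (hρ : IsWeight ρ) (F : Flow) (ha : IsAmp a)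
    (hsub : Submersive F a) :
    ∃ e₀ L, 0 < e₀ ∧ e₀ ≤ 1 ∧ 0 < L ∧ ∀ w : List (Fin 4), ∃ C, 0 ≤ C ∧ ∀ e ∈ Ioc (0 : ℝ) e₀,
      ∀ f : E4 → ℝ, ContDiff ℝ ∞ f → ∀ x,
        e ^ (w.length + 4) * |pdW w (op ρ a F e f) x| ≤ C * ∫ y in closedBall x (L * e), |f y| := by
  obtain ⟨K, hK, ha0, hdet0⟩ := hsub
  obtain ⟨r, δ, hr, hδ, hlow, hinj⟩ := F.exists_inj_radius hK hdet0
  obtain ⟨R, hR⟩ := hρ.compact.isCompact.isBounded.subset_closedBall (0 : E4)
  obtain ⟨L, hL0, hL⟩ := F.exists_move_bound r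
  set e₀ := min 1 (r / 2 / (|R| + 1)) with he₀
  refine ⟨e₀, (L + 1) * (|R| + 1), lt_min one_pos (by positivity), min_le_left _ _, by positivity,
    fun w => ?_⟩
  obtain ⟨ι, _, b, z, hb, hz, hi, hrep⟩ := exists_rep hρ F w ha
  have hdet : ∀ u ∈ closedBall (0 : E4) r, ∀ x ∈ K, (F.jacU u x).det ≠ 0 := fun u hu x hx =>
    abs_pos.1 (hδ.trans_le (hlow u hu x hx))
  have hb0 : ∀ k, ∀ u x, x ∉ K → b k u x = 0 := fun k => (hi k).1 K hK.isClosed ha0
  choose C hC0 hC using fun k => exists_abs_op_pdW_gain F hK hr hdet (z k) hρ hR (hb k) (hb0 k)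
  refine ⟨(∑ k, C k) / δ, div_nonneg (Finset.sum_nonneg fun k _ => hC0 k) hδ.le,
    fun e he f hf x => ?_⟩
  have hI0 : 0 ≤ ∫ y in closedBall x ((L + 1) * (|R| + 1) * e), |f y| :=
    integral_nonneg fun _ => abs_nonneg _
  rw [hrep e f hf]
  by_cases hx : x ∈ K
  swap
  · simp only [op, hb0 _ _ _ hx, zero_mul, mul_zero, integral_zero, Finset.sum_const_zero, abs_zero]
    exact mul_nonneg (div_nonneg (Finset.sum_nonneg fun k _ => hC0 k) hδ.le) hI0
  have he1 : e ∈ Ioc (0 : ℝ) 1 := ⟨he.1, he.2.trans (min_le_left _ _)⟩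
  have heR' : e * (|R| + 1) ≤ r / 2 := by
    calc e * (|R| + 1) ≤ r / 2 / (|R| + 1) * (|R| + 1) :=
          mul_le_mul_of_nonneg_right (he.2.trans (min_le_right _ _)) (by positivity)
      _ = r / 2 := div_mul_cancel₀ _ (by positivity)
  have heR : e * R ≤ r / 2 :=
    (mul_le_mul_of_nonneg_left (by linarith [le_abs_self R]) he.1.le).trans heR'
  set B := closedBall (0 : E4) R with hB
  set I := ∫ v in B, |f (F.fwd (e • v) x)| with hI
  have hmem : ∀ v ∈ B, e • v ∈ closedBall (0 : E4) r ∧ ‖e • v‖ ≤ e * R := by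
    intro v hv
    have h1 : ‖e • v‖ ≤ e * R := by
      rw [norm_smul, Real.norm_eq_abs, abs_of_pos he.1]
      exact mul_le_mul_of_nonneg_left (mem_closedBall_zero_iff.1 hv) he.1.le
    exact ⟨mem_closedBall_zero_iff.2 (h1.trans (heR.trans (half_le_self hr.le))), h1⟩
  set φ : E4 → E4 := fun v => F.fwd (e • v) x with hφ
  set f' : E4 → (E4 →L[ℝ] E4) := fun v =>
    (fderiv ℝ (fun u => F.fwd u x) (e • v)).comp (e • ContinuousLinearMap.id ℝ E4) with hf'
  have hdφ : ∀ v, HasFDerivAt φ (f' v) v := fun v =>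
    (F.differentiable_fwd_param x (e • v)).hasFDerivAt.comp v ((hasFDerivAt_id v).const_smul e)
  have hdetf' : ∀ v, (f' v).det = e ^ 4 * (F.jacU (e • v) x).det := by
    intro v
    rw [Flow.jacU, ← det_eq_jac]
    show LinearMap.det ((fderiv ℝ (fun u => F.fwd u x) (e • v) : E4 →ₗ[ℝ] E4) ∘ₗ
      (e • (LinearMap.id : E4 →ₗ[ℝ] E4))) = _
    rw [LinearMap.det_comp, LinearMap.det_smul, LinearMap.det_id, finrank_euclideanSpace_fin]
    show _ = e ^ 4 * LinearMap.det (fderiv ℝ (fun u => F.fwd u x) (e • v) : E4 →ₗ[ℝ] E4)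
    ring
  have hinjB : InjOn φ B := fun v hv v' hv' h => smul_right_injective E4 he.1.ne'
    (hinj x hx (hmem v hv).1 (hmem v' hv').1 h)
  have hφc : Continuous φ := (Differentiable.continuous fun v => (hdφ v).differentiableAt)
  have hcov := integral_image_eq_integral_abs_det_fderiv_smul (s := B) (volume : Measure E4)
    measurableSet_closedBall (fun v _ => (hdφ v).hasFDerivWithinAt) hinjB (fun y => |f y|)
  have himg : φ '' B ⊆ closedBall x ((L + 1) * (|R| + 1) * e) := by
    rintro _ ⟨v, hv, rfl⟩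
    rw [mem_closedBall, dist_eq_norm]
    refine (hL _ (hmem v hv).1 x).trans ((mul_le_mul_of_nonneg_left (hmem v hv).2 hL0).trans ?_)
    calc L * (e * R) ≤ L * (e * (|R| + 1)) := mul_le_mul_of_nonneg_left
          (mul_le_mul_of_nonneg_left (by linarith [le_abs_self R]) he.1.le) hL0
      _ ≤ (L + 1) * (e * (|R| + 1)) :=
          mul_le_mul_of_nonneg_right (by linarith) (mul_nonneg he.1.le (by positivity))
      _ = _ := by ring
  have hlower : e ^ 4 * δ * I ≤ ∫ y in closedBall x ((L + 1) * (|R| + 1) * e), |f y| := by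
    refine le_trans ?_ (setIntegral_mono_set (f := fun y => |f y|)
      (hf.continuous.abs.continuousOn.integrableOn_compact (isCompact_closedBall _ _))
      (Eventually.of_forall fun y => abs_nonneg _) (LE.le.eventuallyLE himg))
    rw [hcov, hI, ← integral_const_mul]
    refine setIntegral_mono_on ?_ ?_ measurableSet_closedBall fun v hv => ?_
    · exact (continuous_const.mul (hf.continuous.comp hφc).abs).continuousOn.integrableOn_compact
        (isCompact_closedBall _ _)
    · refine Continuous.continuousOn ?_ |>.integrableOn_compact (isCompact_closedBall _ _)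
      simp only [hdetf', smul_eq_mul]
      exact ((continuous_const.mul ((contDiff_det F.contDiff_jacU).continuous.comp
        ((continuous_id.const_smul e).prodMk continuous_const))).abs).mul (hf.continuous.comp hφc).abs
    · rw [smul_eq_mul, hdetf', abs_mul, abs_of_pos (pow_pos he.1 4)]
      exact mul_le_mul_of_nonneg_right
        (mul_le_mul_of_nonneg_left (hlow _ (hmem v hv).1 x hx) (pow_nonneg he.1.le _)) (abs_nonneg _)
  calc e ^ (w.length + 4) * |∑ k, op ρ (b k) F e (pdW (z k) f) x|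
      ≤ e ^ (w.length + 4) * ∑ k, |op ρ (b k) F e (pdW (z k) f) x| :=
        mul_le_mul_of_nonneg_left (Finset.abs_sum_le_sum_abs _ _) (pow_nonneg he.1.le _)
    _ ≤ ∑ k, e ^ 4 * (C k * I) := by
        rw [Finset.mul_sum]
        refine Finset.sum_le_sum fun k _ => ?_
        rw [add_comm, pow_add, mul_assoc]
        refine mul_le_mul_of_nonneg_left (le_trans ?_ (hC k e he1 heR f hf x)) (pow_nonneg he.1.le _)
        exact mul_le_mul_of_nonneg_right (pow_le_pow_of_le_one he.1.le he1.2 (hz k)) (abs_nonneg _)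
    _ = (∑ k, C k) / δ * (e ^ 4 * δ * I) := by
        rw [Finset.sum_div, Finset.sum_mul]
        exact Finset.sum_congr rfl fun k _ => by field_simp
    _ ≤ _ := mul_le_mul_of_nonneg_left hlower
        (div_nonneg (Finset.sum_nonneg fun k _ => hC0 k) hδ.le)

end Vale.Agent.P204.Full.Op
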