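import Vale.Agent.P204.Full.Op.L2

/-!
P204, module F6: the translation flow near the ball of radius `5/2`, the reversed flow, and the
sign of the Jacobian of a flow (helper45).
-/

namespace Vale.Agent.P204.Full.Op

open Set Filter Metric
open scoped ContDiff Topology NNReal

namespace Flow

variable (F : Flow)

lemma bwd_zero (x : E4) : F.bwd 0 x = x := by
  conv_lhs => rw [← F.fwd_zero x]
  exact F.bwd_fwd 0 x

/-- the flow with the roles of the two families exchanged -/
def symm : Flow where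
  fwd := F.bwd
  bwd := F.fwd
  supp := F.supp
  compact_supp := F.compact_supp
  smooth_fwd := F.smooth_bwd
  smooth_bwd := F.smooth_fwd
  fwd_zero := F.bwd_zero
  bwd_fwd := F.fwd_bwd
  fwd_bwd := F.bwd_fwd
  fwd_out := fun _ _ hx => F.bwd_out hx

@[simp] lemma symm_fwd : F.symm.fwd = F.bwd := rfl

@[simp] lemma symm_bwd : F.symm.bwd = F.fwd := rfl

@[simp] lemma symm_supp : F.symm.supp = F.supp := rfl

lemma det_jac_ne_zero (u x : E4) : (jac (F.fwd u) x).det ≠ 0 := by
  have h : jac (F.bwd u) (F.fwd u x) * jac (F.fwd u) x = 1 := by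
    ext c a
    have hd : DifferentiableAt ℝ (F.fwd u) x :=
      ((F.contDiff_fwd_slice u).differentiable (by simp)) x
    have hd' : DifferentiableAt ℝ (F.bwd u) (F.fwd u x) :=
      ((F.contDiff_bwd_slice u).differentiable (by simp)) _
    have hid : (fun y => F.bwd u (F.fwd u y)) = id := funext fun y => F.bwd_fwd u y
    have hc := fderiv_comp x hd' hd
    rw [show F.bwd u ∘ F.fwd u = id from hid, fderiv_id] at hc
    have hv := congrArg (fun L : E4 →L[ℝ] E4 => L (ev4 a) c) hc
    simp only [ContinuousLinearMap.id_apply, ContinuousLinearMap.comp_apply] at hv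
    rw [fderiv_apply_eq_sum (F.bwd u)] at hv
    simp only [Matrix.mul_apply, jac]
    rw [Matrix.one_apply]
    simp [ev4, pd] at hv ⊢
    rw [hv]
    exact Finset.sum_congr rfl fun d _ => mul_comm _ _
  intro h0
  have h1 := congrArg Matrix.det h
  simp [Matrix.det_mul, h0] at h1

theorem det_pos (u x : E4) : 0 < (jac (F.fwd u) x).det := by
  have hc : Continuous fun w => (jac (F.fwd w) x).det := by
    refine Continuous.matrix_det (continuous_pi fun c => continuous_pi fun a => ?_)
    exact (F.contDiff_jac c a).continuous.comp (continuous_id.prodMk continuous_const)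
  by_contra hcon
  have h1 : (jac (F.fwd 0) x).det = 1 := by rw [F.jac_fwd_zero, Matrix.det_one]
  obtain ⟨w, hw⟩ := mem_range_of_exists_le_of_exists_ge hc (c := (0 : ℝ))
    ⟨u, not_lt.1 hcon⟩ ⟨0, by rw [h1]; exact zero_le_one⟩
  exact F.det_jac_ne_zero w x hw

lemma det_jac_param_of_fwd {s : ℝ} (hs : s = 1 ∨ s = -1) {δ : ℝ} (hδ : 0 < δ) {x : E4}
    (h : ∀ u : E4, ‖u‖ < δ → F.fwd u x = x + s • u) :
    (jac (fun u => F.fwd u x) 0).det = 1 := by
  have he : (fun u => F.fwd u x) =ᶠ[𝓝 0] fun u => x + s • u :=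
    Filter.eventuallyEq_of_mem (ball_mem_nhds 0 hδ) fun u hu => h u (by simpa using hu)
  have hf : fderiv ℝ (fun u => F.fwd u x) 0 = s • ContinuousLinearMap.id ℝ E4 := by
    rw [he.fderiv_eq]
    exact (((hasFDerivAt_id (0 : E4)).const_smul s).const_add x).fderiv
  have hj : jac (fun u => F.fwd u x) 0 = s • (1 : Matrix (Fin 4) (Fin 4) ℝ) := by
    ext c a
    simp only [jac, hf]
    simp [ev4, Matrix.one_apply]
  rw [hj, Matrix.det_smul, Matrix.det_one, Fintype.card_fin]
  rcases hs with rfl | rfl <;> norm_num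

end Flow

/-- the family `x ↦ x + χ x • σ u` is a flow when the perturbation is a half contraction -/
theorem exists_flow_of_perturbation {χ : E4 → ℝ} {σ : E4 → E4} {K : ℝ≥0} {r : ℝ} {S : Set E4}
    (hχ : ContDiff ℝ ∞ χ) (hσ : ContDiff ℝ ∞ σ) (hL : LipschitzWith K χ)
    (hr : ∀ u, ‖σ u‖ ≤ r) (hK : (K : ℝ) * r ≤ 1 / 2) (h0 : σ 0 = 0)
    (hS : IsCompact S) (hout : ∀ x, x ∉ S → χ x = 0) :
    ∃ F : Flow, F.supp = S ∧ ∀ u x, F.fwd u x = x + χ x • σ u := by
  have hlip : ∀ u x y, ‖χ x • σ u - χ y • σ u‖ ≤ 1 / 2 * ‖x - y‖ := by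
    intro u x y
    rw [← sub_smul, norm_smul]
    calc ‖χ x - χ y‖ * ‖σ u‖ ≤ (K * ‖x - y‖) * r := by
          refine mul_le_mul ?_ (hr u) (norm_nonneg _) (mul_nonneg K.2 (norm_nonneg _))
          simpa [dist_eq_norm] using hL.dist_le_mul x y
      _ ≤ 1 / 2 * ‖x - y‖ := by
          nlinarith [mul_le_mul_of_nonneg_right hK (norm_nonneg (x - y))]
  have hcon : ∀ u y : E4, ContractingWith (1 / 2) fun x => y - χ x • σ u := by
    intro u y
    refine ⟨by norm_num, LipschitzWith.of_dist_le_mul fun a b => ?_⟩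
    have hab := hlip u b a
    rw [dist_eq_norm, dist_eq_norm, show y - χ a • σ u - (y - χ b • σ u) = χ b • σ u - χ a • σ u by abel,
      norm_sub_rev a b]
    simpa using hab
  let bwd : E4 → E4 → E4 := fun u y => ContractingWith.fixedPoint _ (hcon u y)
  have hfb : ∀ u y, bwd u y + χ (bwd u y) • σ u = y := by
    intro u y
    have h : y - χ (bwd u y) • σ u = bwd u y := (hcon u y).fixedPoint_isFixedPt
    nth_rewrite 1 [← h]
    abel
  have hbf : ∀ u x, bwd u (x + χ x • σ u) = x := fun u x =>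
    ((hcon u (x + χ x • σ u)).fixedPoint_unique
      (show Function.IsFixedPt _ x from by simp [Function.IsFixedPt])).symm
  have hcont : Continuous fun p : E4 × E4 => bwd p.1 p.2 := by
    rw [continuous_iff_continuousAt]
    intro p
    rw [ContinuousAt, tendsto_iff_norm_sub_tendsto_zero]
    refine squeeze_zero (fun q => norm_nonneg _)
      (g := fun q : E4 × E4 => 2 * (‖q.2 - p.2‖ + |χ (bwd p.1 p.2)| * ‖σ q.1 - σ p.1‖)) (fun q => ?_) ?_
    · set a := bwd q.1 q.2
      set b := bwd p.1 p.2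
      have ha := hfb q.1 q.2
      have hb := hfb p.1 p.2
      have e : a - b = (q.2 - p.2) - (χ a • σ q.1 - χ b • σ q.1) - χ b • (σ q.1 - σ p.1) := by
        rw [← ha, ← hb, smul_sub]
        abel
      have h1 := hlip q.1 a b
      have h2 : ‖a - b‖ ≤ ‖q.2 - p.2‖ + ‖χ a • σ q.1 - χ b • σ q.1‖ + ‖χ b • (σ q.1 - σ p.1)‖ := by
        conv_lhs => rw [e]
        exact (norm_sub_le _ _).trans (add_le_add (norm_sub_le _ _) le_rfl)
      rw [norm_smul, Real.norm_eq_abs] at h2
      linarith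
    · have hcσ := hσ.continuous
      have h : Continuous fun q : E4 × E4 =>
          2 * (‖q.2 - p.2‖ + |χ (bwd p.1 p.2)| * ‖σ q.1 - σ p.1‖) := by fun_prop
      simpa using h.tendsto p
  let G : E4 × E4 ≃ₜ E4 × E4 :=
    { toFun := fun p => (p.1, p.2 + χ p.2 • σ p.1)
      invFun := fun p => (p.1, bwd p.1 p.2)
      left_inv := fun p => by simp [hbf]
      right_inv := fun p => by simp [hfb]
      continuous_toFun := continuous_fst.prodMk (continuous_snd.add
        ((hχ.continuous.comp continuous_snd).smul (hσ.continuous.comp continuous_fst)))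
      continuous_invFun := continuous_fst.prodMk hcont }
  have hfwd : ContDiff ℝ ∞ fun p : E4 × E4 => p.2 + χ p.2 • σ p.1 :=
    contDiff_snd.add ((hχ.comp contDiff_snd).smul (hσ.comp contDiff_fst))
  have hG : ContDiff ℝ ∞ (G : E4 × E4 → E4 × E4) := contDiff_fst.prodMk hfwd
  let D : E4 × E4 → ((E4 × E4) →L[ℝ] (E4 × E4)) := fun p => fderiv ℝ (G : E4 × E4 → E4 × E4) p
  have hD : ∀ p, Function.Injective (D p : E4 × E4 → E4 × E4) := by
    intro p
    have h1 : HasFDerivAt (G : E4 × E4 → E4 × E4)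
        ((ContinuousLinearMap.fst ℝ E4 E4).prod (ContinuousLinearMap.snd ℝ E4 E4 +
          (χ p.2 • (fderiv ℝ σ p.1).comp (ContinuousLinearMap.fst ℝ E4 E4) +
            ((fderiv ℝ χ p.2).comp (ContinuousLinearMap.snd ℝ E4 E4)).smulRight (σ p.1)))) p := by
      refine hasFDerivAt_fst.prodMk (hasFDerivAt_snd.add ?_)
      exact (((hχ.differentiable (by simp)) p.2).hasFDerivAt.comp p hasFDerivAt_snd).fun_smul
        (((hσ.differentiable (by simp)) p.1).hasFDerivAt.comp p hasFDerivAt_fst)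
    rw [injective_iff_map_eq_zero]
    intro z hz
    rw [show D p = _ from h1.fderiv] at hz
    obtain ⟨z1, z2⟩ := z
    simp only [ContinuousLinearMap.prod_apply, ContinuousLinearMap.coe_fst', Prod.mk_eq_zero,
      add_apply, ContinuousLinearMap.coe_snd', smul_apply,
      ContinuousLinearMap.comp_apply, ContinuousLinearMap.smulRight_apply] at hz
    obtain ⟨hz1, hz2⟩ := hz
    subst hz1
    simp only [map_zero, smul_zero, zero_add] at hz2
    have hb : ‖fderiv ℝ χ p.2 z2‖ ≤ K * ‖z2‖ :=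
      ContinuousLinearMap.le_of_opNorm_le _ (norm_fderiv_le_of_lipschitz ℝ hL) _
    have hz3 : ‖z2‖ ≤ 1 / 2 * ‖z2‖ := by
      calc ‖z2‖ = ‖fderiv ℝ χ p.2 z2 • σ p.1‖ := by
            exact (congrArg norm (eq_neg_of_add_eq_zero_left hz2)).trans (norm_neg _)
        _ ≤ (K * ‖z2‖) * r := by
            rw [norm_smul]
            exact mul_le_mul hb (hr _) (norm_nonneg _) (mul_nonneg K.2 (norm_nonneg _))
        _ ≤ 1 / 2 * ‖z2‖ := by nlinarith [mul_le_mul_of_nonneg_right hK (norm_nonneg z2)]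
    have : ‖z2‖ = 0 := by linarith [norm_nonneg z2]
    simpa using this
  let De : E4 × E4 → ((E4 × E4) ≃L[ℝ] (E4 × E4)) := fun p =>
    (LinearEquiv.ofInjectiveEndo (D p : E4 × E4 →ₗ[ℝ] E4 × E4) (hD p)).toContinuousLinearEquiv
  have hDe : ∀ p, HasFDerivAt (G : E4 × E4 → E4 × E4) (De p : (E4 × E4) →L[ℝ] (E4 × E4)) p := by
    intro p
    have e : (De p : (E4 × E4) →L[ℝ] (E4 × E4)) = D p := ContinuousLinearMap.ext fun z => rfl
    rw [e]
    exact ((hG.differentiable (by simp)) p).hasFDerivAt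
  have hsm : ContDiff ℝ ∞ fun p : E4 × E4 => bwd p.1 p.2 :=
    contDiff_snd.comp (G.contDiff_symm hDe hG)
  exact ⟨{ fwd := fun u x => x + χ x • σ u
           bwd := bwd
           supp := S
           compact_supp := hS
           smooth_fwd := hfwd
           smooth_bwd := hsm
           fwd_zero := fun x => by simp [h0]
           bwd_fwd := hbf
           fwd_bwd := hfb
           fwd_out := fun u x hx => by simp [hout x hx] }, rfl, fun u x => rfl⟩

/-- a flow supported in the ball of radius three which translates the ball of radius `5/2` by small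
parameters -/
theorem exists_translationFlow : ∃ (F : Flow) (δ : ℝ), 0 < δ ∧ F.supp ⊆ closedBall (0 : E4) 3 ∧
    ∀ u : E4, ‖u‖ < δ → ∀ x ∈ closedBall (0 : E4) (5 / 2),
      F.fwd u x = x + u ∧ F.bwd u x = x - u := by
  let χ : ContDiffBump (0 : E4) := ⟨27 / 10, 3, by norm_num, by norm_num⟩
  obtain ⟨K, hK⟩ : ∃ K : ℝ≥0, LipschitzWith K χ :=
    ⟨_, (χ.contDiff (n := 1)).lipschitzWith_of_hasCompactSupport χ.hasCompactSupport one_ne_zero
      |>.choose_spec⟩
  set r : ℝ := 1 / (2 * (K + 1)) with hr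
  have hr0 : 0 < r := by have := K.2; positivity
  let θ : ContDiffBump (0 : E4) := ⟨r / 2, r, by linarith, by linarith⟩
  obtain ⟨F, hsupp, hF⟩ := exists_flow_of_perturbation (χ := χ) (σ := fun u => θ u • u) (K := K)
    (r := r) (S := closedBall 0 3) χ.contDiff (θ.contDiff.smul contDiff_id) hK (fun u => by
      rw [norm_smul, Real.norm_of_nonneg θ.nonneg]
      by_cases hu : ‖u‖ ≤ r
      · exact (mul_le_of_le_one_left (norm_nonneg _) θ.le_one).trans hu
      · rw [θ.zero_of_le_dist (by rw [dist_zero_right]; exact (not_le.1 hu).le)]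
        simpa using hr0.le)
    (by
      have hK0 : (0 : ℝ) ≤ K := K.2
      rw [hr, mul_one_div, div_le_iff₀ (by positivity)]
      linarith)
    (by simp) (isCompact_closedBall _ _) (fun x hx => χ.zero_of_le_dist (by
      simpa [dist_zero_right] using (not_le.1 (fun h => hx (mem_closedBall_zero_iff.2 h))).le))
  refine ⟨F, min (r / 2) (1 / 5), lt_min (by linarith) (by norm_num), hsupp.le, fun u hu x hx => ?_⟩
  have hθ : θ u = 1 := θ.one_of_mem_closedBall
    (mem_closedBall_zero_iff.2 (hu.le.trans (min_le_left _ _)))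
  have hx' : ‖x‖ ≤ 5 / 2 := mem_closedBall_zero_iff.1 hx
  have hu' : ‖u‖ ≤ 1 / 5 := hu.le.trans (min_le_right _ _)
  have h1 : ∀ y : E4, ‖y‖ ≤ 27 / 10 → F.fwd u y = y + u := fun y hy => by
    rw [hF, χ.one_of_mem_closedBall (mem_closedBall_zero_iff.2 hy), hθ, one_smul, one_smul]
  refine ⟨h1 x (hx'.trans (by norm_num)), ?_⟩
  have h2 := F.bwd_fwd u (x - u)
  rwa [h1 (x - u) ((norm_sub_le _ _).trans (by linarith)), sub_add_cancel] at h2

/-- the translation flow moves in every direction on the ball of radius `5/2` -/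
theorem det_jac_param {F : Flow} {δ : ℝ} (hδ : 0 < δ)
    (h : ∀ u : E4, ‖u‖ < δ → ∀ x ∈ closedBall (0 : E4) (5 / 2),
      F.fwd u x = x + u ∧ F.bwd u x = x - u) {x : E4} (hx : x ∈ closedBall (0 : E4) (5 / 2)) :
    (jac (fun u => F.fwd u x) 0).det = 1 ∧ (jac (fun u => F.symm.fwd u x) 0).det = 1 :=
  ⟨F.det_jac_param_of_fwd (Or.inl rfl) hδ fun u hu => by simpa using (h u hu x hx).1,
    F.symm.det_jac_param_of_fwd (Or.inr rfl) hδ fun u hu => by
      simpa [sub_eq_add_neg] using (h u hu x hx).2⟩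

end Vale.Agent.P204.Full.Op
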